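import Vale.Agent.Lib.P248.PL4

open MeasureTheory Set Module
open scoped ENNReal Pointwise

namespace Vale.Agent.Lib.P243.Abs

section BM

variable {W : Type*} [NormedAddCommGroup W] [InnerProductSpace ℝ W] [FiniteDimensional ℝ W]
  [MeasurableSpace W] [BorelSpace W]

/-- Multiplicative Brunn-Minkowski on a finite-dimensional inner product space. -/
lemma bm_mul {P Q C : Set W} (hP : MeasurableSet P) (hQ : MeasurableSet Q) (hC : MeasurableSet C)
    {θ : ℝ} (h0 : 0 < θ) (h1 : θ < 1)
    (H : ∀ x ∈ P, ∀ y ∈ Q, θ • x + (1 - θ) • y ∈ C) :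
    volume P ^ θ * volume Q ^ (1 - θ) ≤ volume C := by
  classical
  let b := stdOrthonormalBasis ℝ W
  let e : W → (Fin (finrank ℝ W) → ℝ) := fun x => WithLp.ofLp (b.repr x)
  let e' : (Fin (finrank ℝ W) → ℝ) → W := fun y => b.repr.symm (WithLp.toLp 2 y)
  have hee' : ∀ y, e (e' y) = y := by
    intro y
    simp [e, e']
  have he'e : ∀ x, e' (e x) = x := by
    intro x
    simp [e, e']
  have mp1 : MeasurePreserving (b.repr : W → EuclideanSpace ℝ (Fin (finrank ℝ W))) :=
    b.measurePreserving_repr
  have mp2 : MeasurePreserving (@WithLp.ofLp 2 (Fin (finrank ℝ W) → ℝ)) :=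
    PiLp.volume_preserving_ofLp _
  have mp : MeasurePreserving e := mp2.comp mp1
  have hcont : Continuous e' := by
    have : Continuous fun y : Fin (finrank ℝ W) → ℝ =>
        (WithLp.toLp 2 y : EuclideanSpace ℝ (Fin (finrank ℝ W))) :=
      PiLp.continuous_toLp 2 _
    exact b.repr.symm.continuous.comp this
  have hvol : ∀ S : Set W, MeasurableSet S → volume (e' ⁻¹' S) = volume S := by
    intro S hS
    have h2 : e ⁻¹' (e' ⁻¹' S) = S := by
      ext x
      simp [he'e]
    calc volume (e' ⁻¹' S) = volume (e ⁻¹' (e' ⁻¹' S)) :=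
          (mp.measure_preimage (hcont.measurable hS).nullMeasurableSet).symm
      _ = volume S := by rw [h2]
  have hlin : ∀ x y, e' (θ • x + (1 - θ) • y) = θ • e' x + (1 - θ) • e' y := by
    intro x y
    simp only [e', WithLp.toLp_add, WithLp.toLp_smul, map_add, map_smul]
  have key := Vale.Agent.Lib.P248.brunn_minkowski_mul (hcont.measurable hP) (hcont.measurable hQ)
    (hcont.measurable hC) h0 h1 (by
      intro x hx y hy
      show e' (θ • x + (1 - θ) • y) ∈ C
      rw [hlin]
      exact H _ hx _ hy)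
  rwa [hvol P hP, hvol Q hQ, hvol C hC] at key

/-- Additive Brunn-Minkowski in dimension two, with real square roots of the areas. -/
lemma bm_add (hW : finrank ℝ W = 2) {P Q C : Set W} (hP : MeasurableSet P) (hQ : MeasurableSet Q)
    (hC : MeasurableSet C) (hPfin : volume P ≠ ⊤) (hQfin : volume Q ≠ ⊤)
    (hPpos : 0 < volume P) (hQne : Q.Nonempty)
    {m : ℝ} (hm0 : 0 < m) (hm1 : m < 1)
    (H : ∀ x ∈ P, ∀ y ∈ Q, (1 - m) • x + m • y ∈ C) :
    ENNReal.ofReal (((1 - m) * Real.sqrt (volume P).toReal + m * Real.sqrt (volume Q).toReal) ^ 2)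
      ≤ volume C := by
  set A := (volume P).toReal with hA
  set a := (volume Q).toReal with ha
  have hApos : 0 < A := ENNReal.toReal_pos hPpos.ne' hPfin
  have ha0 : 0 ≤ a := ENNReal.toReal_nonneg
  have hVP : volume P = ENNReal.ofReal A := (ENNReal.ofReal_toReal hPfin).symm
  have hVQ : volume Q = ENNReal.ofReal a := (ENNReal.ofReal_toReal hQfin).symm
  set p := Real.sqrt A with hp
  set q := Real.sqrt a with hq
  have hp0 : 0 < p := Real.sqrt_pos.2 hApos
  have hq0 : 0 ≤ q := Real.sqrt_nonneg a
  have hpp : p ^ 2 = A := Real.sq_sqrt hApos.le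
  have hqq : q ^ 2 = a := Real.sq_sqrt ha0
  have h1m : 0 < 1 - m := by linarith
  rcases hq0.eq_or_lt with hq00 | hqpos
  · -- the degenerate case: use a single point of `Q`
    obtain ⟨y0, hy0⟩ := hQne
    have hsub : (fun x => (1 - m) • x + m • y0) '' P ⊆ C := by
      rintro _ ⟨x, hx, rfl⟩
      exact H x hx y0 hy0
    have himg : (fun x => (1 - m) • x + m • y0) '' P = (fun z => z + m • y0) '' ((1 - m) • P) := by
      ext z
      simp only [mem_image, mem_smul_set, exists_exists_and_eq_and]
    have hv : volume ((fun x => (1 - m) • x + m • y0) '' P) = ENNReal.ofReal ((1 - m) ^ 2) * volume P := by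
      rw [himg, image_add_right, measure_preimage_add_right, Measure.addHaar_smul_of_nonneg _ h1m.le, hW]
    calc _ = ENNReal.ofReal ((1 - m) ^ 2) * volume P := by
          rw [← hq00, hVP, ← ENNReal.ofReal_mul (by positivity)]
          congr 1
          rw [← hpp]
          ring
      _ = _ := hv.symm
      _ ≤ _ := measure_mono hsub
  · -- the main case
    set s := (1 - m) * p + m * q with hs
    have hs0 : 0 < s := by positivity
    set θ := (1 - m) * p / s with hθ
    have hθ0 : 0 < θ := by positivity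
    have hθ1 : θ < 1 := by
      rw [hθ, div_lt_one hs0, hs]
      nlinarith [mul_pos hm0 hqpos]
    have h1θ : 1 - θ = m * q / s := by
      rw [hθ, hs]
      field_simp
      ring
    let P' : Set W := p⁻¹ • P
    let Q' : Set W := q⁻¹ • Q
    let C' : Set W := s⁻¹ • C
    have hP' : MeasurableSet P' := hP.const_smul₀ p⁻¹
    have hQ' : MeasurableSet Q' := hQ.const_smul₀ q⁻¹
    have hC' : MeasurableSet C' := hC.const_smul₀ s⁻¹
    have hvP : volume P' = 1 := by
      simp only [P']
      rw [Measure.addHaar_smul_of_nonneg _ (inv_nonneg.2 hp0.le), hW, hVP,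
        ← ENNReal.ofReal_mul (by positivity)]
      have : (p⁻¹) ^ 2 * A = 1 := by
        rw [← hpp]
        field_simp
      rw [this]
      simp
    have hvQ : volume Q' = 1 := by
      simp only [Q']
      rw [Measure.addHaar_smul_of_nonneg _ (inv_nonneg.2 hqpos.le), hW, hVQ,
        ← ENNReal.ofReal_mul (by positivity)]
      have : (q⁻¹) ^ 2 * a = 1 := by
        rw [← hqq]
        field_simp
      rw [this]
      simp
    have hvC : volume C' = ENNReal.ofReal ((s⁻¹) ^ 2) * volume C := by
      simp only [C']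
      rw [Measure.addHaar_smul_of_nonneg _ (inv_nonneg.2 hs0.le), hW]
    have key := bm_mul hP' hQ' hC' hθ0 hθ1 (by
      rintro _ ⟨x, hx, rfl⟩ _ ⟨y, hy, rfl⟩
      refine ⟨(1 - m) • x + m • y, H x hx y hy, ?_⟩
      simp only [smul_eq_mul, smul_add, smul_smul, vadd_eq_add, h1θ]
      congr 2
      · rw [hθ]
        field_simp
      · field_simp)
    rw [hvP, hvQ, hvC] at key
    simp only [ENNReal.one_rpow, mul_one] at key
    have hne : ENNReal.ofReal (s ^ 2) ≠ 0 := by
      simp only [ne_eq, ENNReal.ofReal_eq_zero, not_le]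
      positivity
    calc ENNReal.ofReal (s ^ 2) = ENNReal.ofReal (s ^ 2) * 1 := (mul_one _).symm
      _ ≤ ENNReal.ofReal (s ^ 2) * (ENNReal.ofReal ((s⁻¹) ^ 2) * volume C) := by gcongr
      _ = volume C := by
        rw [← mul_assoc, ← ENNReal.ofReal_mul (by positivity)]
        have : s ^ 2 * (s⁻¹) ^ 2 = 1 := by field_simp
        rw [this]
        simp

end BM

end Vale.Agent.Lib.P243.Abs
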