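import Vale.Agent.Lib.P243.Abs0
import Vale.Agent.Lib.P243.SymmCore

open MeasureTheory Set Module
open scoped ENNReal Pointwise

namespace Vale.Agent.Lib.P243.Abs

open Vale.Agent.Lib.P243

section Fibres

variable {W : Type*} [NormedAddCommGroup W] [InnerProductSpace ℝ W] [FiniteDimensional ℝ W]
  [MeasurableSpace W] [BorelSpace W]

/-- Fibre length of a set in `W × ℝ`. -/
noncomputable def gl (K : Set (W × ℝ)) (y : W) : ℝ := (volume (fib K y)).toReal

/-- The points of the base over which the fibre contains two points at height difference `r`. -/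
def Zr (K : Set (W × ℝ)) (r : ℝ) : Set W := {y | ∃ z, (y, z) ∈ K ∧ (y, z + r) ∈ K}

/-- The part of `K` whose downward translate by `r` stays in `K`. -/
def Kr (K : Set (W × ℝ)) (r : ℝ) : Set (W × ℝ) := {x | x ∈ K ∧ (x.1, x.2 - r) ∈ K}

lemma isCompact_Kr {K : Set (W × ℝ)} (hK : IsCompact K) (r : ℝ) : IsCompact (Kr K r) := by
  have hcl : IsClosed ((fun x : W × ℝ => (x.1, x.2 - r)) ⁻¹' K) :=
    hK.isClosed.preimage (by fun_prop)
  exact hK.inter_right hcl

lemma isCompact_Zr {K : Set (W × ℝ)} (hK : IsCompact K) (r : ℝ) : IsCompact (Zr K r) := by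
  have : Zr K r = Prod.fst '' (Kr K r) := by
    ext y
    constructor
    · rintro ⟨z, h1, h2⟩
      refine ⟨(y, z + r), ⟨h2, ?_⟩, rfl⟩
      simpa using h1
    · rintro ⟨⟨y', z⟩, ⟨h1, h2⟩, rfl⟩
      refine ⟨z - r, h2, ?_⟩
      simpa using h1
  rw [this]
  exact (isCompact_Kr hK r).image continuous_fst

lemma measurable_gl {K : Set (W × ℝ)} (hK : IsCompact K) : Measurable (gl K) :=
  (measurable_measure_prodMk_left hK.measurableSet).ennreal_toReal

lemma vol_fib_ne_top {K : Set (W × ℝ)} (hK : IsCompact K) (y : W) : volume (fib K y) ≠ ⊤ :=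
  (fib_compact hK y).measure_lt_top.ne

lemma volume_prod_eq {K : Set (W × ℝ)} (hK : IsCompact K) :
    (volume.prod volume) K = ∫⁻ y : W, ENNReal.ofReal (gl K y) := by
  rw [Measure.prod_apply hK.measurableSet]
  congr 1
  ext y
  simp only [gl]
  rw [ENNReal.ofReal_toReal (vol_fib_ne_top hK y)]
  rfl

/-- Level inclusion. -/
lemma level_mem {K : Set (W × ℝ)} (hc : Convex ℝ K) (hK : IsCompact K) {y1 y2 : W} {r m : ℝ}
    (h1 : y1 ∈ Prod.fst '' K) (h2 : y2 ∈ Zr K r) (hr : 0 ≤ r) (hm0 : 0 ≤ m) (hm1 : m ≤ 1) :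
    m * r ≤ gl K ((1 - m) • y1 + m • y2) := by
  obtain ⟨⟨y1', s⟩, hp, rfl⟩ := h1
  obtain ⟨z, hz1, hz2⟩ := h2
  simp only at *
  have e : ∀ t : ℝ, (y2, t) ∈ K → (1 - m) * s + m * t ∈ fib K ((1 - m) • y1' + m • y2) := by
    intro t ht
    have := hc hp ht (sub_nonneg.2 hm1) hm0 (by ring)
    simpa [fib] using this
  have := ofReal_le_vol_fib hc (e z hz1) (e _ hz2)
  have h3 : (1 - m) * s + m * (z + r) - ((1 - m) * s + m * z) = m * r := by ring
  rw [h3] at this
  have h4 := ENNReal.toReal_mono (vol_fib_ne_top hK _) this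
  rwa [ENNReal.toReal_ofReal (by positivity)] at h4

lemma layer_cake {K : Set (W × ℝ)} (hK : IsCompact K) :
    (volume.prod volume) K = ∫⁻ l in Ioi (0 : ℝ), volume {y : W | l ≤ gl K y} := by
  rw [volume_prod_eq hK]
  exact lintegral_eq_lintegral_meas_le volume
    (Filter.Eventually.of_forall fun y => ENNReal.toReal_nonneg) (measurable_gl hK).aemeasurable

lemma integral_quad (r p q : ℝ) (hr : 0 < r) :
    ∫ l in (0 : ℝ)..r, ((1 - l / r) * p + l / r * q) ^ 2 = r * (p ^ 2 + p * q + q ^ 2) / 3 := by
  have hr' : r ≠ 0 := hr.ne'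
  have key : ∀ l ∈ uIcc 0 r, HasDerivAt
      (fun l : ℝ => p ^ 2 * l + p * (q - p) * l ^ 2 / r + (q - p) ^ 2 * l ^ 3 / (3 * r ^ 2))
      (((1 - l / r) * p + l / r * q) ^ 2) l := by
    intro l _
    have h1 : HasDerivAt (fun l : ℝ => p ^ 2 * l) (p ^ 2) l := by
      simpa using (hasDerivAt_id l).const_mul (p ^ 2)
    have h2 : HasDerivAt (fun l : ℝ => p * (q - p) * l ^ 2 / r) (p * (q - p) * (2 * l) / r) l := by
      have := ((hasDerivAt_pow 2 l).const_mul (p * (q - p))).div_const r
      simpa using this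
    have h3 : HasDerivAt (fun l : ℝ => (q - p) ^ 2 * l ^ 3 / (3 * r ^ 2))
        ((q - p) ^ 2 * (3 * l ^ 2) / (3 * r ^ 2)) l := by
      have := ((hasDerivAt_pow 3 l).const_mul ((q - p) ^ 2)).div_const (3 * r ^ 2)
      simpa using this
    have h4 := (h1.add h2).add h3
    have e : ((1 - l / r) * p + l / r * q) ^ 2
        = p ^ 2 + p * (q - p) * (2 * l) / r + (q - p) ^ 2 * (3 * l ^ 2) / (3 * r ^ 2) := by
      field_simp
      ring
    rw [e]
    exact h4
  rw [intervalIntegral.integral_eq_sub_of_hasDerivAt key]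
  · field_simp
    ring
  · apply Continuous.intervalIntegrable
    fun_prop

/-- Rogers-Shephard with a Brunn-Minkowski gain. -/
theorem rs_bm (hW : finrank ℝ W = 2) {K : Set (W × ℝ)} (hc : Convex ℝ K) (hK : IsCompact K)
    (hS : 0 < volume (Prod.fst '' K)) {r : ℝ} (hr : 0 < r) (hZ : (Zr K r).Nonempty) :
    ENNReal.ofReal (r * ((volume (Prod.fst '' K)).toReal
        + Real.sqrt (volume (Prod.fst '' K)).toReal * Real.sqrt (volume (Zr K r)).toReal
        + (volume (Zr K r)).toReal) / 3)
      ≤ (volume.prod volume) K := by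
  set S := Prod.fst '' K with hSdef
  have hSc : IsCompact S := hK.image continuous_fst
  have hZc : IsCompact (Zr K r) := isCompact_Zr hK r
  set A := (volume S).toReal with hA
  set a := (volume (Zr K r)).toReal with ha
  have hA0 : 0 ≤ A := ENNReal.toReal_nonneg
  have ha0 : 0 ≤ a := ENNReal.toReal_nonneg
  set p := Real.sqrt A with hp
  set q := Real.sqrt a with hq
  have hpp : p ^ 2 = A := Real.sq_sqrt hA0
  have hqq : q ^ 2 = a := Real.sq_sqrt ha0
  let F : ℝ → ℝ := fun l => ((1 - l / r) * p + l / r * q) ^ 2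
  have hFc : Continuous F := by fun_prop
  have hint : ∫⁻ l in Ioo 0 r, ENNReal.ofReal (F l) = ENNReal.ofReal (r * (A + p * q + a) / 3) := by
    rw [← ofReal_integral_eq_lintegral_ofReal
      (hFc.integrableOn_Icc.mono_set Ioo_subset_Icc_self)
      (Filter.Eventually.of_forall fun l => sq_nonneg _)]
    rw [← integral_Ioc_eq_integral_Ioo, ← intervalIntegral.integral_of_le hr.le]
    simp only [F]
    rw [integral_quad r p q hr, hpp, hqq]
  rw [← hint, layer_cake hK]
  calc ∫⁻ l in Ioo 0 r, ENNReal.ofReal (F l)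
      ≤ ∫⁻ l in Ioo 0 r, volume {y : W | l ≤ gl K y} := by
        apply setLIntegral_mono' measurableSet_Ioo
        rintro l ⟨h1, h2⟩
        have hm0 : 0 < l / r := div_pos h1 hr
        have hm1 : l / r < 1 := (div_lt_one hr).2 h2
        exact bm_add hW hSc.measurableSet hZc.measurableSet
          (measurable_gl hK measurableSet_Ici) hSc.measure_lt_top.ne hZc.measure_lt_top.ne hS hZ
          hm0 hm1 (by
            intro x hx y hy
            have := level_mem hc hK hx hy hr.le hm0.le hm1.le
            rwa [div_mul_cancel₀ _ hr.ne'] at this)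
    _ ≤ _ := lintegral_mono_set Ioo_subset_Ioi_self

/-- A point of `Zr` gives the cone lower bound on the level sets. -/
lemma level_cone (hW : finrank ℝ W = 2) {K : Set (W × ℝ)} (hc : Convex ℝ K) (hK : IsCompact K)
    {D : ℝ} (hD : 0 < D) (hZ : (Zr K D).Nonempty) {m : ℝ} (hm0 : 0 ≤ m) (hm1 : m ≤ 1) :
    ENNReal.ofReal ((1 - m) ^ 2) * volume (Prod.fst '' K) ≤ volume {y : W | m * D ≤ gl K y} := by
  obtain ⟨y0, hy0⟩ := hZ
  have hsub : (fun x => (1 - m) • x + m • y0) '' (Prod.fst '' K) ⊆ {y : W | m * D ≤ gl K y} := by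
    rintro _ ⟨x, hx, rfl⟩
    exact level_mem hc hK hx hy0 hD.le hm0 hm1
  have himg : (fun x => (1 - m) • x + m • y0) '' (Prod.fst '' K)
      = (fun z => z + m • y0) '' ((1 - m) • (Prod.fst '' K)) := by
    ext z
    simp only [mem_image, mem_smul_set, exists_exists_and_eq_and]
  have hv : volume ((fun x => (1 - m) • x + m • y0) '' (Prod.fst '' K))
      = ENNReal.ofReal ((1 - m) ^ 2) * volume (Prod.fst '' K) := by
    rw [himg, image_add_right, measure_preimage_add_right,
      Measure.addHaar_smul_of_nonneg _ (sub_nonneg.2 hm1), hW]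
  rw [← hv]
  exact measure_mono hsub

lemma integral_cone (D R : ℝ) (hD : 0 < D) :
    ∫ l in (0 : ℝ)..R, (1 - l / D) ^ 2 = D * (1 - (1 - R / D) ^ 3) / 3 := by
  have key : ∀ l ∈ uIcc 0 R, HasDerivAt (fun l : ℝ => - (D * (1 - l / D) ^ 3 / 3))
      ((1 - l / D) ^ 2) l := by
    intro l _
    have h1 : HasDerivAt (fun l : ℝ => 1 - l / D) (- (1 / D)) l := by
      simpa using ((hasDerivAt_id l).div_const D).const_sub 1
    have h2 := ((h1.pow 3).const_mul D).div_const 3
    have h3 := h2.neg
    have e : (1 - l / D) ^ 2 = -(D * (((3 : ℕ) : ℝ) * (1 - l / D) ^ (3 - 1) * -(1 / D)) / 3) := by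
      push_cast
      field_simp
    rw [e]
    exact h3
  rw [intervalIntegral.integral_eq_sub_of_hasDerivAt key]
  · simp
    ring
  · apply Continuous.intervalIntegrable
    fun_prop

/-- The translated intersection is smaller than the body by the cone integral. -/
theorem Kr_add_cone_le (hW : finrank ℝ W = 2) {K : Set (W × ℝ)} (hc : Convex ℝ K) (hK : IsCompact K)
    {D : ℝ} (hD : 0 < D) (hZ : (Zr K D).Nonempty) {R : ℝ} (hR0 : 0 ≤ R) (hRD : R ≤ D) :
    (volume.prod volume) (Kr K R)
        + ENNReal.ofReal (D * (1 - (1 - R / D) ^ 3) / 3) * volume (Prod.fst '' K)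
      ≤ (volume.prod volume) K := by
  set S := Prod.fst '' K with hSdef
  have hgm : Measurable (gl K) := measurable_gl hK
  let f1 : W → ℝ := fun y => max (gl K y - R) 0
  let f2 : W → ℝ := fun y => min (gl K y) R
  have hf1m : Measurable f1 := (hgm.sub_const R).max measurable_const
  have hf2m : Measurable f2 := hgm.min measurable_const
  have hg0 : ∀ y, 0 ≤ gl K y := fun y => ENNReal.toReal_nonneg
  have hf10 : ∀ y, 0 ≤ f1 y := fun y => le_max_right _ _
  have hf20 : ∀ y, 0 ≤ f2 y := fun y => le_min (hg0 y) hR0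
  have hsplit : ∀ y, ENNReal.ofReal (gl K y) = ENNReal.ofReal (f1 y) + ENNReal.ofReal (f2 y) := by
    intro y
    rw [← ENNReal.ofReal_add (hf10 y) (hf20 y)]
    congr 1
    simp only [f1, f2]
    rcases le_total (gl K y) R with h | h
    · rw [max_eq_right (by linarith), min_eq_left h]
      ring
    · rw [max_eq_left (by linarith), min_eq_right h]
      ring
  have hV : (volume.prod volume) K = (∫⁻ y, ENNReal.ofReal (f1 y)) + ∫⁻ y, ENNReal.ofReal (f2 y) := by
    rw [volume_prod_eq hK, ← lintegral_add_left hf1m.ennreal_ofReal (fun y => ENNReal.ofReal (f2 y))]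
    exact lintegral_congr hsplit
  -- the first piece dominates the translated intersection
  have h1 : (volume.prod volume) (Kr K R) ≤ ∫⁻ y, ENNReal.ofReal (f1 y) := by
    rw [Measure.prod_apply (isCompact_Kr hK R).measurableSet]
    apply lintegral_mono
    intro y
    by_cases hy : y ∈ S
    · obtain ⟨a, b, ha, hb, hsub⟩ := exists_fib_extremes hK hy
      have hab : ENNReal.ofReal (b - a) ≤ volume (fib K y) := ofReal_le_vol_fib hc ha hb
      have hab' : b - a ≤ gl K y := by
        have hle := hsub ha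
        have h0 : 0 ≤ b - a := by linarith [hle.2]
        have := ENNReal.toReal_mono (vol_fib_ne_top hK y) hab
        rwa [ENNReal.toReal_ofReal h0] at this
      have hsub2 : Prod.mk y ⁻¹' Kr K R ⊆ Icc (a + R) b := by
        rintro z ⟨hz1, hz2⟩
        have h3 : z ∈ fib K y := hz1
        have h4 : z - R ∈ fib K y := hz2
        exact ⟨by linarith [(hsub h4).1], (hsub h3).2⟩
      calc volume (Prod.mk y ⁻¹' Kr K R) ≤ volume (Icc (a + R) b) := measure_mono hsub2
        _ = ENNReal.ofReal (b - (a + R)) := Real.volume_Icc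
        _ ≤ ENNReal.ofReal (f1 y) := by
          apply ENNReal.ofReal_le_ofReal
          simp only [f1]
          exact le_max_of_le_left (by linarith)
    · have : Prod.mk y ⁻¹' Kr K R = ∅ := by
        ext z
        simp only [mem_preimage, mem_empty_iff_false, iff_false]
        rintro ⟨hz1, -⟩
        exact hy ⟨(y, z), hz1, rfl⟩
      show volume (Prod.mk y ⁻¹' Kr K R) ≤ _
      rw [this]
      simp
  -- the second piece dominates the cone integral
  have h2 : ENNReal.ofReal (D * (1 - (1 - R / D) ^ 3) / 3) * volume S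
      ≤ ∫⁻ y, ENNReal.ofReal (f2 y) := by
    rw [lintegral_eq_lintegral_meas_le volume (Filter.Eventually.of_forall hf20) hf2m.aemeasurable]
    let F : ℝ → ℝ := fun l => (1 - l / D) ^ 2
    have hFc : Continuous F := by fun_prop
    have hR' : D * (1 - (1 - R / D) ^ 3) / 3 = ∫ l in (0 : ℝ)..R, F l := (integral_cone D R hD).symm
    have hint : ENNReal.ofReal (D * (1 - (1 - R / D) ^ 3) / 3)
        = ∫⁻ l in Ioo 0 R, ENNReal.ofReal (F l) := by
      rw [hR', ← ofReal_integral_eq_lintegral_ofReal
        (hFc.integrableOn_Icc.mono_set Ioo_subset_Icc_self)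
        (Filter.Eventually.of_forall fun l => sq_nonneg _)]
      rw [← integral_Ioc_eq_integral_Ioo, ← intervalIntegral.integral_of_le hR0]
    rw [hint, ← lintegral_mul_const _ (by fun_prop)]
    calc ∫⁻ l in Ioo 0 R, ENNReal.ofReal (F l) * volume S
        ≤ ∫⁻ l in Ioo 0 R, volume {y | l ≤ f2 y} := by
          apply setLIntegral_mono' measurableSet_Ioo
          rintro l ⟨hl0, hlR⟩
          have hm0 : 0 ≤ l / D := (div_pos hl0 hD).le
          have hm1 : l / D ≤ 1 := (div_le_one hD).2 (hlR.le.trans hRD)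
          have h3 := level_cone hW hc hK hD hZ hm0 hm1
          rw [div_mul_cancel₀ _ hD.ne'] at h3
          refine h3.trans (measure_mono ?_)
          intro y hy
          exact le_min hy hlR.le
      _ ≤ _ := lintegral_mono_set Ioo_subset_Ioi_self
  rw [hV]
  gcongr

/-- Chord-length bound: the translated intersection is small when chords are bounded by `D`. -/
theorem Kr_le_mul {K : Set (W × ℝ)} (hK : IsCompact K) {D r : ℝ}
    (hch : ∀ y z1 z2, (y, z1) ∈ K → (y, z2) ∈ K → |z1 - z2| ≤ D) :
    (volume.prod volume) (Kr K r) ≤ ENNReal.ofReal (D - r) * volume (Zr K r) := by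
  have hZc : IsCompact (Zr K r) := isCompact_Zr hK r
  rw [Measure.prod_apply (isCompact_Kr hK r).measurableSet]
  calc ∫⁻ y, volume (Prod.mk y ⁻¹' Kr K r)
      ≤ ∫⁻ y, (Zr K r).indicator (fun _ => ENNReal.ofReal (D - r)) y := by
        apply lintegral_mono
        intro y
        by_cases hy : y ∈ Zr K r
        · rw [indicator_of_mem hy]
          have hS : y ∈ Prod.fst '' K := by
            obtain ⟨z, h1, -⟩ := hy
            exact ⟨(y, z), h1, rfl⟩
          obtain ⟨a, b, ha, hb, hsub⟩ := exists_fib_extremes hK hS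
          have hsub2 : Prod.mk y ⁻¹' Kr K r ⊆ Icc (a + r) b := by
            rintro z ⟨hz1, hz2⟩
            have h3 : z ∈ fib K y := hz1
            have h4 : z - r ∈ fib K y := hz2
            exact ⟨by linarith [(hsub h4).1], (hsub h3).2⟩
          have hba : b - a ≤ D := by
            have := hch y b a hb ha
            exact (le_abs_self _).trans this
          calc volume (Prod.mk y ⁻¹' Kr K r) ≤ volume (Icc (a + r) b) := measure_mono hsub2
            _ = ENNReal.ofReal (b - (a + r)) := Real.volume_Icc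
            _ ≤ _ := ENNReal.ofReal_le_ofReal (by linarith)
        · rw [indicator_of_notMem hy]
          have : Prod.mk y ⁻¹' Kr K r = ∅ := by
            ext z
            simp only [mem_preimage, mem_empty_iff_false, iff_false]
            rintro ⟨hz1, hz2⟩
            refine hy ⟨z - r, hz2, ?_⟩
            simpa using hz1
          show volume (Prod.mk y ⁻¹' Kr K r) ≤ _
          rw [this]
          simp
    _ = _ := lintegral_indicator_const hZc.measurableSet _

/-- One cylinder: a set with bounded chords meets a cylinder of base `B` in volume at most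
chord bound times base area. -/
theorem cyl_le {A : Set (W × ℝ)} (hA : MeasurableSet A) {d : ℝ}
    (hch : ∀ y z1 z2, (y, z1) ∈ A → (y, z2) ∈ A → |z1 - z2| ≤ d) {B : Set W} (hB : MeasurableSet B) :
    (volume.prod volume) (A ∩ Prod.fst ⁻¹' B) ≤ ENNReal.ofReal d * volume B := by
  have hm : MeasurableSet (A ∩ Prod.fst ⁻¹' B) := hA.inter (measurable_fst hB)
  rw [Measure.prod_apply hm]
  calc ∫⁻ y, volume (Prod.mk y ⁻¹' (A ∩ Prod.fst ⁻¹' B))
      ≤ ∫⁻ y, B.indicator (fun _ => ENNReal.ofReal d) y := by
        apply lintegral_mono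
        intro y
        by_cases hy : y ∈ B
        · rw [indicator_of_mem hy]
          calc volume (Prod.mk y ⁻¹' (A ∩ Prod.fst ⁻¹' B))
              ≤ Metric.ediam (Prod.mk y ⁻¹' (A ∩ Prod.fst ⁻¹' B)) := Real.volume_le_diam _
            _ ≤ _ := by
              apply Metric.ediam_le
              rintro z1 ⟨h1, -⟩ z2 ⟨h2, -⟩
              rw [edist_dist]
              exact ENNReal.ofReal_le_ofReal (by
                rw [Real.dist_eq]
                exact hch y z1 z2 h1 h2)
        · rw [indicator_of_notMem hy]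
          have : Prod.mk y ⁻¹' (A ∩ Prod.fst ⁻¹' B) = ∅ := by
            ext z
            simp only [mem_preimage, mem_inter_iff, mem_empty_iff_false, iff_false, not_and]
            intro _ h2
            exact hy h2
          show volume (Prod.mk y ⁻¹' (A ∩ Prod.fst ⁻¹' B)) ≤ _
          rw [this]
          simp
    _ = _ := lintegral_indicator_const hB _

end Fibres

end Vale.Agent.Lib.P243.Abs
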