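import Vale.Agent.Lib.P243.Abs1
import Vale.Agent.Lib.P243.SymmTransfer

open MeasureTheory Set Module
open scoped ENNReal Pointwise RealInnerProductSpace

namespace Vale.Agent.Lib.P243.Abs

open Vale.Agent.Lib.P243

section Transfer

variable {E : Type*} [NormedAddCommGroup E] [InnerProductSpace ℝ E] [FiniteDimensional ℝ E]
  [MeasurableSpace E] [BorelSpace E]

lemma splitEquiv_snd (u : E) (hu : ‖u‖ = 1) (x : E) : (splitEquiv u hu x).2 = ⟪u, x⟫ := by
  simp only [splitEquiv]
  simp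
  rw [LinearIsometryEquiv.symm_apply_eq]
  apply Subtype.ext
  have h := Submodule.starProjection_unit_singleton ℝ hu x
  simpa using h

lemma splitEquiv_self (u : E) (hu : ‖u‖ = 1) : splitEquiv u hu u = (0, 1) := by
  ext
  · rw [splitEquiv_fst, Submodule.orthogonalProjectionOnto_orthogonalComplement_singleton_eq_zero]
  · rw [splitEquiv_snd]
    simp [hu]

lemma splitEquiv_sub_smul (u : E) (hu : ‖u‖ = 1) (x : E) (r : ℝ) :
    splitEquiv u hu (x - r • u) = ((splitEquiv u hu x).1, (splitEquiv u hu x).2 - r) := by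
  rw [map_sub, map_smul, splitEquiv_self]
  ext <;> simp

lemma splitEquiv_add_smul (u : E) (hu : ‖u‖ = 1) (x : E) (r : ℝ) :
    splitEquiv u hu (x + r • u) = ((splitEquiv u hu x).1, (splitEquiv u hu x).2 + r) := by
  rw [map_add, map_smul, splitEquiv_self]
  ext <;> simp

lemma image_Kr (u : E) (hu : ‖u‖ = 1) (K : Set E) (r : ℝ) :
    splitEquiv u hu '' (K ∩ (fun x => x - r • u) ⁻¹' K) = Kr (splitEquiv u hu '' K) r := by
  ext p
  constructor
  · rintro ⟨x, ⟨h1, h2⟩, rfl⟩
    refine ⟨⟨x, h1, rfl⟩, ?_⟩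
    exact ⟨x - r • u, h2, splitEquiv_sub_smul u hu x r⟩
  · rintro ⟨⟨x, h1, rfl⟩, ⟨x', h2, h3⟩⟩
    refine ⟨x, ⟨h1, ?_⟩, rfl⟩
    have : x - r • u = x' := (splitEquiv u hu).injective (by
      rw [splitEquiv_sub_smul, h3])
    simpa [mem_preimage, this] using h2

lemma vol_image (u : E) (hu : ‖u‖ = 1) {S : Set E} (hS : MeasurableSet S) :
    ((volume : Measure (Submodule.span ℝ {u})ᗮ).prod (volume : Measure ℝ)) (splitEquiv u hu '' S)
      = volume S := by
  have hT := splitEquiv_measurePreserving u hu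
  have hm : MeasurableSet (splitEquiv u hu '' S) :=
    (splitEquiv u hu).toHomeomorph.toMeasurableEquiv.measurableSet_image.2 hS
  rw [← hT.measure_preimage hm.nullMeasurableSet,
    (splitEquiv u hu).injective.preimage_image]

lemma fst_image_split (u : E) (hu : ‖u‖ = 1) (K : Set E) :
    Prod.fst '' (splitEquiv u hu '' K) = (Submodule.span ℝ {u})ᗮ.orthogonalProjectionOnto '' K := by
  ext z
  constructor
  · rintro ⟨_, ⟨x, hx, rfl⟩, rfl⟩
    exact ⟨x, hx, (splitEquiv_fst u hu x).symm⟩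
  · rintro ⟨x, hx, rfl⟩
    exact ⟨_, ⟨x, hx, rfl⟩, splitEquiv_fst u hu x⟩

lemma finrank_perp (hE : finrank ℝ E = 3) (u : E) (hu : ‖u‖ = 1) :
    finrank ℝ (Submodule.span ℝ {u})ᗮ = 2 := by
  have hu0 : u ≠ 0 := by
    intro h
    simp [h] at hu
  have h1 := (Submodule.span ℝ {u}).finrank_add_finrank_orthogonal
  rw [finrank_span_singleton hu0, hE] at h1
  omega

lemma image_convex (u : E) (hu : ‖u‖ = 1) {K : Set E} (hc : Convex ℝ K) :
    Convex ℝ (splitEquiv u hu '' K) :=
  hc.linear_image ((splitEquiv u hu).toLinearEquiv.toLinearMap)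

lemma image_compact (u : E) (hu : ‖u‖ = 1) {K : Set E} (hK : IsCompact K) :
    IsCompact (splitEquiv u hu '' K) := hK.image (splitEquiv u hu).continuous

/-- Rogers-Shephard with the Brunn-Minkowski gain, for a body in `E`. -/
theorem E_rs (hE : finrank ℝ E = 3) (u : E) (hu : ‖u‖ = 1) {K : Set E} (hc : Convex ℝ K)
    (hK : IsCompact K) (hS : 0 < volume ((Submodule.span ℝ {u})ᗮ.orthogonalProjectionOnto '' K))
    {r : ℝ} (hr : 0 < r) (hZ : (Zr (splitEquiv u hu '' K) r).Nonempty) :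
    ENNReal.ofReal (r * ((volume ((Submodule.span ℝ {u})ᗮ.orthogonalProjectionOnto '' K)).toReal
        + Real.sqrt (volume ((Submodule.span ℝ {u})ᗮ.orthogonalProjectionOnto '' K)).toReal
          * Real.sqrt (volume (Zr (splitEquiv u hu '' K) r)).toReal
        + (volume (Zr (splitEquiv u hu '' K) r)).toReal) / 3)
      ≤ volume K := by
  have h := rs_bm (finrank_perp hE u hu) (image_convex u hu hc) (image_compact u hu hK)
    (by rwa [fst_image_split]) hr hZ
  rw [fst_image_split, vol_image u hu hK.measurableSet] at h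
  exact h

/-- The chord bound for the translated intersection. -/
theorem E_Kr_le (u : E) (hu : ‖u‖ = 1) {K : Set E} (hK : IsCompact K) {D r : ℝ}
    (hD : ∀ x ∈ K, ∀ y ∈ K, ‖x - y‖ ≤ D) :
    volume (K ∩ (fun x => x - r • u) ⁻¹' K)
      ≤ ENNReal.ofReal (D - r) * volume (Zr (splitEquiv u hu '' K) r) := by
  have hm : MeasurableSet (K ∩ (fun x => x - r • u) ⁻¹' K) :=
    hK.measurableSet.inter (hK.isClosed.preimage (by fun_prop)).measurableSet
  rw [← vol_image u hu hm, image_Kr]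
  apply Kr_le_mul (image_compact u hu hK)
  rintro y z1 z2 ⟨x1, h1, e1⟩ ⟨x2, h2, e2⟩
  have h3 := hD x1 h1 x2 h2
  have e : x1 = x2 + (z1 - z2) • u := (splitEquiv u hu).injective (by
    rw [splitEquiv_add_smul, e1, e2]
    simp)
  rw [e, add_sub_cancel_left, norm_smul, hu, mul_one] at h3
  simpa using h3

/-- The cone bound for the translated intersection. -/
theorem E_cone (hE : finrank ℝ E = 3) (u : E) (hu : ‖u‖ = 1) {K : Set E} (hc : Convex ℝ K)
    (hK : IsCompact K) {D R : ℝ} (hD : 0 < D) {a : E} (ha : a ∈ K) (hb : a + D • u ∈ K)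
    (hR0 : 0 ≤ R) (hRD : R ≤ D) :
    volume (K ∩ (fun x => x - R • u) ⁻¹' K)
        + ENNReal.ofReal (D * (1 - (1 - R / D) ^ 3) / 3)
          * volume ((Submodule.span ℝ {u})ᗮ.orthogonalProjectionOnto '' K)
      ≤ volume K := by
  have hm : MeasurableSet (K ∩ (fun x => x - R • u) ⁻¹' K) :=
    hK.measurableSet.inter (hK.isClosed.preimage (by fun_prop)).measurableSet
  have hZ : (Zr (splitEquiv u hu '' K) D).Nonempty := by
    refine ⟨(splitEquiv u hu a).1, (splitEquiv u hu a).2, ⟨a, ha, rfl⟩, ⟨a + D • u, hb, ?_⟩⟩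
    exact splitEquiv_add_smul u hu a D
  have h := Kr_add_cone_le (finrank_perp hE u hu) (image_convex u hu hc) (image_compact u hu hK)
    hD hZ hR0 hRD
  rw [fst_image_split, vol_image u hu hK.measurableSet, ← image_Kr, vol_image u hu hm] at h
  exact h

/-- One cylinder: a measurable set of distance bound `d` meets the cylinder over `B` in volume
at most `d` times the outer measure of `B`. -/
theorem E_cyl (u : E) (hu : ‖u‖ = 1) {A : Set E} (hA : MeasurableSet A) {d : ℝ}
    (hd : ∀ x ∈ A, ∀ y ∈ A, ‖x - y‖ ≤ d) (B : Set (Submodule.span ℝ {u})ᗮ) :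
    volume (A ∩ (Submodule.span ℝ {u})ᗮ.orthogonalProjectionOnto ⁻¹' B)
      ≤ ENNReal.ofReal d * volume B := by
  set B' := toMeasurable volume B with hB'
  have hB'm : MeasurableSet B' := measurableSet_toMeasurable _ _
  have hT := splitEquiv_measurePreserving u hu
  have hAT : MeasurableSet (splitEquiv u hu '' A) :=
    (splitEquiv u hu).toHomeomorph.toMeasurableEquiv.measurableSet_image.2 hA
  have hsub : A ∩ (Submodule.span ℝ {u})ᗮ.orthogonalProjectionOnto ⁻¹' B
      ⊆ splitEquiv u hu ⁻¹' (splitEquiv u hu '' A ∩ Prod.fst ⁻¹' B') := by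
    rintro x ⟨h1, h2⟩
    refine ⟨⟨x, h1, rfl⟩, ?_⟩
    show (splitEquiv u hu x).1 ∈ B'
    rw [splitEquiv_fst]
    exact subset_toMeasurable _ _ h2
  have hm : MeasurableSet (splitEquiv u hu '' A ∩ Prod.fst ⁻¹' B') :=
    hAT.inter (measurable_fst hB'm)
  calc _ ≤ volume (splitEquiv u hu ⁻¹' (splitEquiv u hu '' A ∩ Prod.fst ⁻¹' B')) := measure_mono hsub
    _ = _ := hT.measure_preimage hm.nullMeasurableSet
    _ ≤ ENNReal.ofReal d * volume B' := by
      apply cyl_le hAT _ hB'm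
      rintro y z1 z2 ⟨x1, h1, e1⟩ ⟨x2, h2, e2⟩
      have h3 := hd x1 h1 x2 h2
      have e : x1 = x2 + (z1 - z2) • u := (splitEquiv u hu).injective (by
        rw [splitEquiv_add_smul, e1, e2]
        simp)
      rw [e, add_sub_cancel_left, norm_smul, hu, mul_one] at h3
      simpa using h3
    _ = _ := by rw [hB', measure_toMeasurable]

/-- Covering: a measurable subset of the union of the cylinders, of distance bound `d`, has volume
at most `d` times the sum of the base areas. -/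
theorem E_cover {ι : Type*} [Fintype ι] (u : ι → E) (hu : ∀ i, ‖u i‖ = 1)
    (B : (i : ι) → Set (Submodule.span ℝ {u i})ᗮ) {A : Set E} (hA : MeasurableSet A) {d : ℝ}
    (hd : ∀ x ∈ A, ∀ y ∈ A, ‖x - y‖ ≤ d)
    (hcov : ∀ x ∈ A, ∃ i, (Submodule.span ℝ {u i})ᗮ.orthogonalProjectionOnto x ∈ B i) :
    volume A ≤ ENNReal.ofReal d * ∑ i, volume (B i) := by
  have hsub : A ⊆ ⋃ i, (A ∩ (Submodule.span ℝ {u i})ᗮ.orthogonalProjectionOnto ⁻¹' (B i)) := by
    intro x hx
    obtain ⟨i, hi⟩ := hcov x hx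
    exact mem_iUnion.2 ⟨i, hx, hi⟩
  calc volume A ≤ volume (⋃ i, (A ∩ (Submodule.span ℝ {u i})ᗮ.orthogonalProjectionOnto ⁻¹' (B i))) :=
        measure_mono hsub
    _ ≤ ∑' i, volume (A ∩ (Submodule.span ℝ {u i})ᗮ.orthogonalProjectionOnto ⁻¹' (B i)) :=
        measure_iUnion_le _
    _ = ∑ i, volume (A ∩ (Submodule.span ℝ {u i})ᗮ.orthogonalProjectionOnto ⁻¹' (B i)) :=
        tsum_fintype _
    _ ≤ ∑ i, ENNReal.ofReal d * volume (B i) :=
        Finset.sum_le_sum fun i _ => E_cyl (u i) (hu i) hA hd (B i)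
    _ = _ := by rw [Finset.mul_sum]

end Transfer

end Vale.Agent.Lib.P243.Abs
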