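import Vale.Agent.Lib.P243.Abs2

open MeasureTheory Set Module
open scoped ENNReal Pointwise RealInnerProductSpace

namespace Vale.Agent.Lib.P243.Abs

open Vale.Agent.Lib.P243

section Conv

variable {F : Type*} [NormedAddCommGroup F] [NormedSpace ℝ F] [FiniteDimensional ℝ F]
  [MeasurableSpace F] [BorelSpace F]

lemma compact_sub {S : Set F} (hS : IsCompact S) : IsCompact (S - S) := by
  have e : S - S = (fun p : F × F => p.1 - p.2) '' (S ×ˢ S) := by
    ext z
    constructor
    · rintro ⟨a, ha, b, hb, rfl⟩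
      exact ⟨(a, b), ⟨ha, hb⟩, rfl⟩
    · rintro ⟨⟨a, b⟩, ⟨ha, hb⟩, rfl⟩
      exact ⟨a, ha, b, hb, rfl⟩
  rw [e]
  exact (hS.prod hS).image (by fun_prop)

/-- The convolution identity for indicator functions. -/
lemma conv_eq (μ : Measure F) [μ.IsAddHaarMeasure] {X Y : Set F} (hX : MeasurableSet X)
    (hY : MeasurableSet Y) :
    ∫⁻ t, μ (Y ∩ (fun x => x - t) ⁻¹' X) ∂μ = μ X * μ Y := by
  let Ω : Set (F × F) := {p | p.2 ∈ Y ∧ p.2 - p.1 ∈ X}
  have hΩ : MeasurableSet Ω :=
    (measurable_snd hY).inter ((measurable_snd.sub measurable_fst) hX)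
  have h1 : (μ.prod μ) Ω = ∫⁻ t, μ (Y ∩ (fun x => x - t) ⁻¹' X) ∂μ := by
    rw [Measure.prod_apply hΩ]
    rfl
  have h2 : (μ.prod μ) Ω = μ X * μ Y := by
    rw [Measure.prod_apply_symm hΩ]
    have e : ∀ x : F, μ ((fun t => (t, x)) ⁻¹' Ω) = Y.indicator (fun _ => μ X) x := by
      intro x
      by_cases hx : x ∈ Y
      · rw [indicator_of_mem hx]
        have e2 : (fun t => (t, x)) ⁻¹' Ω = (fun t => x - t) ⁻¹' X := by
          ext t
          simp [Ω, hx]
        rw [e2]
        exact (μ.measurePreserving_sub_left x).measure_preimage hX.nullMeasurableSet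
      · rw [indicator_of_notMem hx]
        have e2 : (fun t => (t, x)) ⁻¹' Ω = ∅ := by
          ext t
          simp [Ω, hx]
        rw [e2]
        simp
    simp_rw [e]
    rw [lintegral_indicator_const hY]
  rw [← h1, h2]

/-- Covariogram bound: the difference set of a planar compact convex set has area at most sixteen
times its area. -/
lemma vol_sub_le (μ : Measure F) [μ.IsAddHaarMeasure] (hF : finrank ℝ F = 2) {S : Set F}
    (hc : Convex ℝ S) (hS : IsCompact S) (hpos : 0 < μ S) : μ (S - S) ≤ 16 * μ S := by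
  have hfin : μ S ≠ ⊤ := hS.measure_lt_top.ne
  have hsub : IsCompact (S - S) := compact_sub hS
  let Q : Set F := (1 / 2 : ℝ) • (S - S)
  have hQ : MeasurableSet Q := (hsub.smul (1 / 2 : ℝ)).measurableSet
  have hQv : μ Q = ENNReal.ofReal (1 / 4) * μ (S - S) := by
    simp only [Q]
    rw [Measure.addHaar_smul_of_nonneg _ (by norm_num), hF]
    norm_num
  have hconv := conv_eq μ hS.measurableSet hS.measurableSet
  have hlow : ∀ t ∈ Q, ENNReal.ofReal (1 / 4) * μ S ≤ μ (S ∩ (fun x => x - t) ⁻¹' S) := by
    rintro _ ⟨_, ⟨s1, h1, s2, h2, rfl⟩, rfl⟩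
    have hincl : (fun z => z + (1 / 2 : ℝ) • s1) '' ((1 / 2 : ℝ) • S)
        ⊆ S ∩ (fun x => x - (1 / 2 : ℝ) • (s1 - s2)) ⁻¹' S := by
      rintro _ ⟨_, ⟨s, hs, rfl⟩, rfl⟩
      constructor
      · exact hc hs h1 (by norm_num) (by norm_num) (by norm_num)
      · have := hc hs h2 (by norm_num : (0 : ℝ) ≤ 1 / 2) (by norm_num : (0 : ℝ) ≤ 1 / 2) (by norm_num)
        simp only [mem_preimage]
        convert this using 1
        simp only [smul_sub]
        abel
    calc ENNReal.ofReal (1 / 4) * μ S
        = μ ((fun z => z + (1 / 2 : ℝ) • s1) '' ((1 / 2 : ℝ) • S)) := by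
          rw [image_add_right, measure_preimage_add_right,
            Measure.addHaar_smul_of_nonneg _ (by norm_num), hF]
          norm_num
      _ ≤ _ := measure_mono hincl
  have h1 : ENNReal.ofReal (1 / 4) * μ S * μ Q ≤ μ S * μ S := by
    rw [← hconv, ← lintegral_indicator_const hQ]
    apply lintegral_mono
    intro t
    by_cases ht : t ∈ Q
    · rw [indicator_of_mem ht]
      exact hlow t ht
    · rw [indicator_of_notMem ht]
      exact bot_le
  rw [hQv] at h1
  have h2 : μ S * (ENNReal.ofReal (1 / 16) * μ (S - S)) ≤ μ S * μ S := by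
    calc μ S * (ENNReal.ofReal (1 / 16) * μ (S - S))
        = ENNReal.ofReal (1 / 4) * μ S * (ENNReal.ofReal (1 / 4) * μ (S - S)) := by
          have : ENNReal.ofReal (1 / 16) = ENNReal.ofReal (1 / 4) * ENNReal.ofReal (1 / 4) := by
            rw [← ENNReal.ofReal_mul (by norm_num)]
            norm_num
          rw [this]
          ring
      _ ≤ _ := h1
  have h3 := (ENNReal.mul_le_mul_iff_right hpos.ne' hfin).1 h2
  calc μ (S - S) = 16 * (ENNReal.ofReal (1 / 16) * μ (S - S)) := by
        rw [← mul_assoc]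
        have : (16 : ℝ≥0∞) * ENNReal.ofReal (1 / 16) = 1 := by
          have e : (16 : ℝ≥0∞) = ENNReal.ofReal 16 := by simp
          rw [e, ← ENNReal.ofReal_mul (by norm_num)]
          norm_num
        rw [this, one_mul]
    _ ≤ _ := by gcongr

end Conv

section Overlap

variable {E : Type*} [NormedAddCommGroup E] [InnerProductSpace ℝ E] [FiniteDimensional ℝ E]
  [MeasurableSpace E] [BorelSpace E]

/-- The averaging step: two measurable subsets of `K`, whose points differ by a vector with height
in an interval of length `l`, have a translate with large overlap. -/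
theorem exists_overlap (hE : finrank ℝ E = 3) (u : E) (hu : ‖u‖ = 1) {K : Set E} (hc : Convex ℝ K)
    (hK : IsCompact K) (hS : 0 < volume ((Submodule.span ℝ {u})ᗮ.orthogonalProjectionOnto '' K))
    {X Y : Set E} (hX : MeasurableSet X) (hY : MeasurableSet Y) (hXK : X ⊆ K) (hYK : Y ⊆ K)
    {c l : ℝ} (hl : ∀ x ∈ X, ∀ y ∈ Y, ⟪u, y - x⟫ ∈ Icc c (c + l)) {m : ℝ≥0∞}
    (hm : m * (16 * volume ((Submodule.span ℝ {u})ᗮ.orthogonalProjectionOnto '' K)
      * ENNReal.ofReal l) < volume X * volume Y) :
    ∃ x ∈ X, ∃ y ∈ Y, m < volume (Y ∩ (fun z => z - (y - x)) ⁻¹' X) := by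
  by_contra hcon
  push Not at hcon
  set π := (Submodule.span ℝ {u})ᗮ.orthogonalProjectionOnto with hπ
  set S := π '' K with hSdef
  have hcont : Continuous π := ContinuousLinearMap.continuous _
  have hSc : IsCompact S := hK.image hcont
  have hSconv : Convex ℝ S := hc.linear_image (π.toLinearMap)
  have hW : finrank ℝ (Submodule.span ℝ {u})ᗮ = 2 := finrank_perp hE u hu
  let T : Set E := splitEquiv u hu ⁻¹' ((S - S) ×ˢ Icc c (c + l))
  have hT := splitEquiv_measurePreserving u hu
  have hTm : MeasurableSet T := by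
    apply (splitEquiv u hu).continuous.measurable
    exact (compact_sub hSc).measurableSet.prod measurableSet_Icc
  have hTv : volume T ≤ 16 * volume S * ENNReal.ofReal l := by
    have e := hT.measure_preimage
      (((compact_sub hSc).measurableSet.prod (measurableSet_Icc (a := c) (b := c + l))).nullMeasurableSet)
    simp only [T]
    rw [e, Measure.prod_prod, Real.volume_Icc]
    have h1 := vol_sub_le volume hW hSconv hSc hS
    have e2 : c + l - c = l := by ring
    rw [e2]
    gcongr
  have hle : ∀ t, volume (Y ∩ (fun z => z - t) ⁻¹' X) ≤ T.indicator (fun _ => m) t := by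
    intro t
    by_cases hne : (Y ∩ (fun z => z - t) ⁻¹' X).Nonempty
    · obtain ⟨y, hy, hxt⟩ := hne
      simp only [mem_preimage] at hxt
      have ht : t = y - (y - t) := by abel
      have hmem : t ∈ T := by
        refine ⟨?_, ?_⟩
        · show (splitEquiv u hu t).1 ∈ S - S
          rw [splitEquiv_fst, ht, map_sub]
          exact ⟨π y, ⟨y, hYK hy, rfl⟩, π (y - t), ⟨_, hXK hxt, rfl⟩, rfl⟩
        · show (splitEquiv u hu t).2 ∈ Icc c (c + l)
          rw [splitEquiv_snd]
          have := hl _ hxt y hy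
          rwa [← ht] at this
      rw [indicator_of_mem hmem]
      have := hcon _ hxt y hy
      rwa [← ht] at this
    · rw [not_nonempty_iff_eq_empty] at hne
      rw [hne]
      simp
  have h1 : volume X * volume Y ≤ m * volume T := by
    rw [← conv_eq volume hX hY, ← lintegral_indicator_const hTm]
    exact lintegral_mono hle
  exact absurd (h1.trans (by gcongr)) (not_le.2 hm)

end Overlap

end Vale.Agent.Lib.P243.Abs
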