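import Vale.Agent.Lib.P243.Abs3

open MeasureTheory Set Module
open scoped ENNReal Pointwise RealInnerProductSpace

namespace Vale.Agent.Lib.P243.Abs

open Vale.Agent.Lib.P243

section Metric

variable {E : Type*} [NormedAddCommGroup E] [InnerProductSpace ℝ E]

/-- The homothetic copy of `K` with centre `c` and ratio `1 - t`. -/
def hom (K : Set E) (c : E) (t : ℝ) : Set E := (fun k => (1 - t) • k + t • c) '' K

lemma hom_subset {K : Set E} (hc : Convex ℝ K) {c : E} (hcK : c ∈ K) {t : ℝ} (h0 : 0 ≤ t)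
    (h1 : t ≤ 1) : hom K c t ⊆ K := by
  rintro _ ⟨k, hk, rfl⟩
  exact hc hk hcK (sub_nonneg.2 h1) h0 (by ring)

lemma hom_compact {K : Set E} (hK : IsCompact K) (c : E) (t : ℝ) : IsCompact (hom K c t) :=
  hK.image (by fun_prop)

lemma norm_sq_combo (p q : E) (t : ℝ) :
    ‖(1 - t) • p + t • q‖ ^ 2 = (1 - t) * ‖p‖ ^ 2 + t * ‖q‖ ^ 2 - t * (1 - t) * ‖p - q‖ ^ 2 := by
  rw [norm_add_sq_real, norm_sub_sq_real, norm_smul, norm_smul, inner_smul_left, inner_smul_right]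
  simp only [Real.norm_eq_abs, mul_pow, sq_abs, conj_trivial]
  ring

/-- The parallelogram law bound. -/
lemma depth {K : Set E} {D : ℝ} (hD : ∀ x ∈ K, ∀ y ∈ K, ‖x - y‖ ≤ D) {c : E} (hcK : c ∈ K) {t : ℝ}
    (h0 : 0 ≤ t) (h1 : t ≤ 1) {x w : E} (hx : x ∈ hom K c t) (hw : w ∈ K) :
    ‖x - w‖ ^ 2 ≤ D ^ 2 - t * ‖x - c‖ ^ 2 := by
  obtain ⟨k, hk, rfl⟩ := hx
  have e1 : (1 - t) • k + t • c - w = (1 - t) • (k - w) + t • (c - w) := by
    simp only [smul_sub, sub_smul, one_smul]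
    abel
  have e2 : (1 - t) • k + t • c - c = (1 - t) • (k - c) := by
    simp only [smul_sub, sub_smul, one_smul]
    abel
  have e3 : (k - w) - (c - w) = k - c := by abel
  rw [e1, e2, norm_sq_combo, e3, norm_smul, mul_pow, Real.norm_eq_abs, sq_abs]
  have h2 : ‖k - w‖ ^ 2 ≤ D ^ 2 := by
    have := hD k hk w hw
    exact pow_le_pow_left₀ (norm_nonneg _) this 2
  have h3 : ‖c - w‖ ^ 2 ≤ D ^ 2 := by
    have := hD c hcK w hw
    exact pow_le_pow_left₀ (norm_nonneg _) this 2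
  have h4 : 0 ≤ 1 - t := sub_nonneg.2 h1
  have h5 : 0 ≤ ‖k - c‖ ^ 2 := by positivity
  have h6 : (1 - t) * ‖k - w‖ ^ 2 ≤ (1 - t) * D ^ 2 := by gcongr
  have h7 : t * ‖c - w‖ ^ 2 ≤ t * D ^ 2 := by gcongr
  have h8 : t * ((1 - t) ^ 2 * ‖k - c‖ ^ 2) ≤ t * (1 - t) * ‖k - c‖ ^ 2 := by
    have : (1 - t) ^ 2 ≤ 1 - t := by nlinarith
    calc t * ((1 - t) ^ 2 * ‖k - c‖ ^ 2) ≤ t * ((1 - t) * ‖k - c‖ ^ 2) := by gcongr
      _ = _ := by ring
  nlinarith

/-- A long pair rules out membership in a homothet when the point is far from the centre. -/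
lemma not_mem_hom {K : Set E} {D ε : ℝ} (hD : ∀ x ∈ K, ∀ y ∈ K, ‖x - y‖ ≤ D) (hD0 : 0 ≤ D)
    (hε0 : 0 ≤ ε) (hε1 : ε ≤ 1) {c : E} (hcK : c ∈ K) {t : ℝ} (h0 : 0 ≤ t) (h1 : t ≤ 1) {x w : E}
    (hw : w ∈ K) (hlong : (1 - ε) * D < ‖x - w‖) (hfar : 2 * ε * D ^ 2 ≤ t * ‖x - c‖ ^ 2) :
    x ∉ hom K c t := by
  intro hx
  have h2 := depth hD hcK h0 h1 hx hw
  have h3 : ((1 - ε) * D) ^ 2 < ‖x - w‖ ^ 2 :=
    pow_lt_pow_left₀ hlong (mul_nonneg (sub_nonneg.2 hε1) hD0) (by norm_num)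
  nlinarith [sq_nonneg (ε * D)]

variable {K : Set E} {D ε η t1 t2 : ℝ} {a b x w : E}

/-- A long pair forces the end point into the rims or near one of the ends of the diameter. -/
lemma near_ends (hD : ∀ x ∈ K, ∀ y ∈ K, ‖x - y‖ ≤ D) (hD0 : 0 < D) (hε0 : 0 ≤ ε) (hε1 : ε ≤ 1)
    (ha : a ∈ K) (hb : b ∈ K) (hab : ‖b - a‖ = D) (hη : 0 ≤ η)
    (ht1 : 8 * ε ≤ t1) (ht1' : t1 ≤ 1) (ht2 : 2 * ε ≤ t2 * η ^ 2) (ht20 : 0 ≤ t2) (ht2' : t2 ≤ 1)
    (hw : w ∈ K) (hlong : (1 - ε) * D < ‖x - w‖)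
    (h1 : x ∈ hom K b t1 ∪ hom K a t2) (h2 : x ∈ hom K b t2 ∪ hom K a t1) :
    ‖x - a‖ < η * D ∨ ‖x - b‖ < η * D := by
  by_contra hcon
  push Not at hcon
  obtain ⟨hxa, hxb⟩ := hcon
  have ht10 : 0 ≤ t1 := by linarith
  have hsum : D ≤ ‖x - a‖ + ‖x - b‖ := by
    rw [← hab]
    calc ‖b - a‖ = ‖(x - a) - (x - b)‖ := by congr 1; abel
      _ ≤ _ := norm_sub_le _ _
  have sqa : (η * D) ^ 2 ≤ ‖x - a‖ ^ 2 := pow_le_pow_left₀ (by positivity) hxa 2
  have sqb : (η * D) ^ 2 ≤ ‖x - b‖ ^ 2 := pow_le_pow_left₀ (by positivity) hxb 2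
  rcases le_total (D / 2) ‖x - b‖ with hq | hq
  · -- `x` is far from `b`
    have sq : (D / 2) ^ 2 ≤ ‖x - b‖ ^ 2 := pow_le_pow_left₀ (by positivity) hq 2
    have n1 : x ∉ hom K b t1 := not_mem_hom hD hD0.le hε0 hε1 hb ht10 ht1' hw hlong (by
      have : t1 * (D / 2) ^ 2 ≤ t1 * ‖x - b‖ ^ 2 := by gcongr
      nlinarith [sq_nonneg D])
    have n2 : x ∉ hom K a t2 := not_mem_hom hD hD0.le hε0 hε1 ha ht20 ht2' hw hlong (by
      have : t2 * (η * D) ^ 2 ≤ t2 * ‖x - a‖ ^ 2 := by gcongr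
      nlinarith [sq_nonneg D])
    rcases h1 with h | h
    · exact n1 h
    · exact n2 h
  · have hp : D / 2 ≤ ‖x - a‖ := by linarith
    have sq : (D / 2) ^ 2 ≤ ‖x - a‖ ^ 2 := pow_le_pow_left₀ (by positivity) hp 2
    have n1 : x ∉ hom K a t1 := not_mem_hom hD hD0.le hε0 hε1 ha ht10 ht1' hw hlong (by
      have : t1 * (D / 2) ^ 2 ≤ t1 * ‖x - a‖ ^ 2 := by gcongr
      nlinarith [sq_nonneg D])
    have n2 : x ∉ hom K b t2 := not_mem_hom hD hD0.le hε0 hε1 hb ht20 ht2' hw hlong (by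
      have : t2 * (η * D) ^ 2 ≤ t2 * ‖x - b‖ ^ 2 := by gcongr
      nlinarith [sq_nonneg D])
    rcases h2 with h | h
    · exact n2 h
    · exact n1 h

/-- Two points near the two ends of a diameter at long distance lie in two thin slabs. -/
lemma slab_of_long {u : E} (hu : ‖u‖ = 1) {τ : ℝ} (hD : ∀ x ∈ K, ∀ y ∈ K, ‖x - y‖ ≤ D) (hD0 : 0 < D)
    (hε0 : 0 ≤ ε) (ha : a ∈ K) (hb : a + D • u ∈ K) (hx : x ∈ K) (hw : w ∈ K)
    (hxa : ‖x - a‖ < η * D) (hwb : ‖w - (a + D • u)‖ < η * D) (hlong : (1 - ε) * D < ‖x - w‖)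
    (hε1 : ε ≤ 1) (hτ : ε + 2 * η ^ 2 ≤ τ) :
    ⟪u, x - a⟫ ≤ τ * D ∧ ⟪u, a + D • u - w⟫ ≤ τ * D := by
  have huu : ⟪u, u⟫ = 1 := by
    rw [real_inner_self_eq_norm_sq, hu]
    norm_num
  set p := x - a with hp
  set q := a + D • u - w with hq
  have hη : 0 ≤ η := by
    by_contra h
    push Not at h
    have : η * D < 0 := mul_neg_of_neg_of_pos h hD0
    linarith [norm_nonneg (x - a)]
  -- the two heights are nonnegative
  have hA : 0 ≤ ⟪u, p⟫ := by
    have h1 := hD x hx _ hb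
    have e : x - (a + D • u) = p - D • u := by
      rw [hp]
      abel
    rw [e] at h1
    have h2 : ‖p - D • u‖ ^ 2 ≤ D ^ 2 := pow_le_pow_left₀ (norm_nonneg _) h1 2
    rw [norm_sub_sq_real, norm_smul, inner_smul_right, real_inner_comm, hu] at h2
    simp only [Real.norm_eq_abs, mul_one, sq_abs] at h2
    have h3 : 0 ≤ ‖p‖ ^ 2 := by positivity
    have : 0 ≤ D * ⟪u, p⟫ := by nlinarith
    exact nonneg_of_mul_nonneg_right this hD0
  have hB : 0 ≤ ⟪u, q⟫ := by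
    have h1 := hD w hw a ha
    have e : w - a = D • u - q := by
      rw [hq]
      abel
    rw [e] at h1
    have h2 : ‖D • u - q‖ ^ 2 ≤ D ^ 2 := pow_le_pow_left₀ (norm_nonneg _) h1 2
    rw [norm_sub_sq_real, norm_smul, inner_smul_left, hu] at h2
    simp only [Real.norm_eq_abs, mul_one, sq_abs, conj_trivial] at h2
    have h3 : 0 ≤ ‖q‖ ^ 2 := by positivity
    have : 0 ≤ D * ⟪u, q⟫ := by nlinarith
    exact nonneg_of_mul_nonneg_right this hD0
  -- the main identity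
  have e : w - x = D • u - (p + q) := by
    rw [hp, hq]
    abel
  have hn : ‖p + q‖ ≤ 2 * (η * D) := by
    have h1 : ‖p‖ < η * D := hxa
    have h2 : ‖q‖ < η * D := by
      rw [hq, ← norm_neg]
      simpa using hwb
    linarith [norm_add_le p q]
  have hn2 : ‖p + q‖ ^ 2 ≤ (2 * (η * D)) ^ 2 := pow_le_pow_left₀ (norm_nonneg _) hn 2
  have hlong2 : ((1 - ε) * D) ^ 2 < ‖w - x‖ ^ 2 := by
    rw [norm_sub_rev]
    exact pow_lt_pow_left₀ hlong (mul_nonneg (sub_nonneg.2 hε1) hD0.le) (by norm_num)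
  rw [e, norm_sub_sq_real, norm_smul, inner_smul_left, hu, inner_add_right] at hlong2
  simp only [Real.norm_eq_abs, mul_one, sq_abs, conj_trivial] at hlong2
  have hsum : D * (⟪u, p⟫ + ⟪u, q⟫) < D * (τ * D) := by
    have h4 : 0 ≤ ε ^ 2 * D ^ 2 := by positivity
    have h5 : D * (τ * D) ≥ D * ((ε + 2 * η ^ 2) * D) := by gcongr
    nlinarith
  have hlt : ⟪u, p⟫ + ⟪u, q⟫ < τ * D := lt_of_mul_lt_mul_left hsum hD0.le
  constructor <;> linarith

end Metric

section Rim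

variable {E : Type*} [NormedAddCommGroup E] [InnerProductSpace ℝ E] [FiniteDimensional ℝ E]
  [MeasurableSpace E] [BorelSpace E]

lemma hom_volume (hE : finrank ℝ E = 3) (K : Set E) (c : E) {t : ℝ} (h1 : t ≤ 1) :
    volume (hom K c t) = ENNReal.ofReal ((1 - t) ^ 3) * volume K := by
  have himg : hom K c t = (fun z => z + t • c) '' ((1 - t) • K) := by
    ext z
    simp only [hom, mem_image, mem_smul_set, exists_exists_and_eq_and]
  rw [himg, image_add_right, measure_preimage_add_right,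
    Measure.addHaar_smul_of_nonneg _ (sub_nonneg.2 h1), hE]

/-- The rim bound. -/
theorem rim_bound (hE : finrank ℝ E = 3) {K : Set E} (hc : Convex ℝ K) (hK : IsCompact K)
    (u : E) (hu : ‖u‖ = 1) {D : ℝ} (hD : 0 < D) {a : E} (ha : a ∈ K) (hb : a + D • u ∈ K)
    {t1 t2 : ℝ} (ht1 : 0 ≤ t1) (ht2 : 0 ≤ t2) (ht : t1 + t2 ≤ 1) :
    (volume (K \ (hom K (a + D • u) t1 ∪ hom K a t2))).toReal
      ≤ (volume K).toReal * (2 - (1 - t1) ^ 3 - (1 - t2) ^ 3)
        - D * (1 - (1 - (t1 + t2)) ^ 3) / 3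
          * (volume ((Submodule.span ℝ {u})ᗮ.orthogonalProjectionOnto '' K)).toReal := by
  set b := a + D • u with hbdef
  set P := hom K b t1 with hP
  set Q := hom K a t2 with hQ
  have ht11 : t1 ≤ 1 := by linarith
  have ht21 : t2 ≤ 1 := by linarith
  have hPK : P ⊆ K := hom_subset hc hb ht1 ht11
  have hQK : Q ⊆ K := hom_subset hc ha ht2 ht21
  have hPc : IsCompact P := hom_compact hK _ _
  have hQc : IsCompact Q := hom_compact hK _ _
  have hVfin : volume K ≠ ⊤ := hK.measure_lt_top.ne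
  have hPfin : volume P ≠ ⊤ := hPc.measure_lt_top.ne
  have hQfin : volume Q ≠ ⊤ := hQc.measure_lt_top.ne
  have hUfin : volume (P ∪ Q) ≠ ⊤ := (hPc.union hQc).measure_lt_top.ne
  have hIfin : volume (P ∩ Q) ≠ ⊤ := (hPc.inter_right hQc.isClosed).measure_lt_top.ne
  set R := (t1 + t2) * D with hR
  have hR0 : 0 ≤ R := by positivity
  have hRD : R ≤ D := by
    rw [hR]
    nlinarith
  set Z := K ∩ (fun x => x - R • u) ⁻¹' K with hZ
  have hZm : MeasurableSet Z := hK.measurableSet.inter (hK.isClosed.preimage (by fun_prop)).measurableSet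
  -- the intersection of the two homothets is inside a translate of `Z`
  have hIZ : volume (P ∩ Q) ≤ volume Z := by
    have hsub : P ∩ Q ⊆ (fun x => x + (t2 * D) • u) ⁻¹' Z := by
      rintro x ⟨⟨k1, hk1, rfl⟩, ⟨k2, hk2, e2⟩⟩
      simp only at e2
      constructor
      · have h1 := hom_subset hc hb ht2 ht21 ⟨k2, hk2, rfl⟩
        convert h1 using 1
        show (1 - t1) • k1 + t1 • b + (t2 * D) • u = (1 - t2) • k2 + t2 • b
        rw [← e2, hbdef]
        simp only [smul_add, smul_smul]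
        abel
      · have h1 := hom_subset hc ha ht1 ht11 ⟨k1, hk1, rfl⟩
        show _ ∈ K
        convert h1 using 1
        rw [hR, hbdef]
        simp only [smul_add, smul_smul, add_smul, sub_smul, one_smul]
        have e3 : t2 * D = D * t2 := mul_comm _ _
        have e4 : t1 * D = D * t1 := mul_comm _ _
        simp only [add_mul, e3, e4, add_smul, smul_add, smul_smul]
        abel
    calc volume (P ∩ Q) ≤ volume ((fun x => x + (t2 * D) • u) ⁻¹' Z) := measure_mono hsub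
      _ = volume Z := measure_preimage_add_right _ _ _
  have hcone := E_cone hE u hu hc hK hD ha hb hR0 hRD
  have hZfin : volume Z ≠ ⊤ := (measure_mono inter_subset_left).trans_lt hK.measure_lt_top |>.ne
  set A := (volume ((Submodule.span ℝ {u})ᗮ.orthogonalProjectionOnto '' K)).toReal with hA
  have hAfin : volume ((Submodule.span ℝ {u})ᗮ.orthogonalProjectionOnto '' K) ≠ ⊤ :=
    (hK.image (ContinuousLinearMap.continuous _)).measure_lt_top.ne
  have hRD' : R / D = t1 + t2 := by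
    rw [hR]
    field_simp
  rw [hRD'] at hcone
  have hcoef : 0 ≤ D * (1 - (1 - (t1 + t2)) ^ 3) / 3 := by
    have h1 : (1 - (t1 + t2)) ^ 3 ≤ 1 := pow_le_one₀ (by linarith) (by linarith)
    have : 0 ≤ 1 - (1 - (t1 + t2)) ^ 3 := by linarith
    positivity
  have hconeR : (volume Z).toReal + D * (1 - (1 - (t1 + t2)) ^ 3) / 3 * A ≤ (volume K).toReal := by
    have := ENNReal.toReal_mono hVfin hcone
    rwa [ENNReal.toReal_add hZfin (ENNReal.mul_ne_top ENNReal.ofReal_ne_top hAfin),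
      ENNReal.toReal_mul, ENNReal.toReal_ofReal hcoef] at this
  have hI : (volume (P ∩ Q)).toReal ≤ (volume Z).toReal := ENNReal.toReal_mono hZfin hIZ
  have hU : (volume (P ∪ Q)).toReal + (volume (P ∩ Q)).toReal
      = (volume P).toReal + (volume Q).toReal := by
    have := measure_union_add_inter P hQc.measurableSet (μ := volume)
    have h2 := congrArg ENNReal.toReal this
    rwa [ENNReal.toReal_add hUfin hIfin, ENNReal.toReal_add hPfin hQfin] at h2
  have hD' : (volume (K \ (P ∪ Q))).toReal = (volume K).toReal - (volume (P ∪ Q)).toReal := by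
    rw [measure_sdiff (union_subset hPK hQK) (hPc.union hQc).measurableSet.nullMeasurableSet hUfin,
      ENNReal.toReal_sub_of_le (measure_mono (union_subset hPK hQK)) hVfin]
  have hvP : (volume P).toReal = (1 - t1) ^ 3 * (volume K).toReal := by
    rw [hP, hom_volume hE K b ht11, ENNReal.toReal_mul, ENNReal.toReal_ofReal (by
      have : 0 ≤ 1 - t1 := by linarith
      positivity)]
  have hvQ : (volume Q).toReal = (1 - t2) ^ 3 * (volume K).toReal := by
    rw [hQ, hom_volume hE K a ht21, ENNReal.toReal_mul, ENNReal.toReal_ofReal (by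
      have : 0 ≤ 1 - t2 := by linarith
      positivity)]
  rw [hD']
  nlinarith

end Rim

end Vale.Agent.Lib.P243.Abs
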