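import Vale.Agent.Lib.P243.Abs4

open MeasureTheory Set Module
open scoped ENNReal Pointwise RealInnerProductSpace

namespace Vale.Agent.Lib.P243.Abs

open Vale.Agent.Lib.P243

noncomputable def eps : ℝ := 8 / 10 ^ 9
noncomputable def eta : ℝ := 1 / 560
noncomputable def tA : ℝ := 64 / 10 ^ 9
noncomputable def tB : ℝ := 502 / 10 ^ 5
noncomputable def tau : ℝ := 64 / 10 ^ 7
noncomputable def gam : ℝ := 1 / 10 ^ 9

lemma rim_arith1 {V w r : ℝ} (hV : 0 ≤ V)
    (h1 : r ≤ V * (2 - (1 - tA) ^ 3 - (1 - tB) ^ 3) - (1 - (1 - (tA + tB)) ^ 3) * w)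
    (hw : V < (1 + eps) * w) : r ≤ 21 / 10 ^ 10 * V := by
  norm_num [tA, tB, eps] at h1 hw ⊢
  linarith

lemma rim_arith2 {V w r : ℝ} (hV : 0 ≤ V)
    (h1 : r ≤ V * (2 - (1 - tB) ^ 3 - (1 - tA) ^ 3) - (1 - (1 - (tB + tA)) ^ 3) * w)
    (hw : V < (1 + eps) * w) : r ≤ 21 / 10 ^ 10 * V := by
  norm_num [tA, tB, eps] at h1 hw ⊢
  linarith

/-- The arithmetic of the last case. -/
lemma arith_last {V D B a r : ℝ} (hV : 0 < V) (hD : 0 < D) (hB : 0 ≤ B) (ha : 0 ≤ a)
    (hr : (1 - 2 * tau) * D ≤ r) (h1 : 65 / 10 ^ 16 * V ≤ (2 * tau * D) * a)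
    (h2 : r * (B + Real.sqrt B * Real.sqrt a + a) / 3 ≤ V) :
    D * ((1 + gam) / 3 * B) ≤ V := by
  by_contra hcon
  push Not at hcon
  set w := D * B / 3 with hw
  have hw1 : V < (1 + gam) * w := by
    rw [hw]
    calc V < D * ((1 + gam) / 3 * B) := hcon
      _ = _ := by ring
  have hw0 : 0 < w := by
    by_contra h
    push Not at h
    have : (1 + gam) * w ≤ 0 := by
      have : (0 : ℝ) < 1 + gam := by norm_num [gam]
      nlinarith
    linarith
  have hτ : 0 < tau := by norm_num [tau]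
  -- the bound for the product of the two areas
  have hB' : 3 * V < (1 + gam) * (D * B) := by
    have : (1 + gam) * w = (1 + gam) * (D * B) / 3 := by
      rw [hw]
      ring
    linarith
  have ha' : 65 / 10 ^ 16 * V ≤ 2 * tau * (D * a) := by
    calc _ ≤ _ := h1
      _ = _ := by ring
  set ς : ℝ := 39 / 10 ^ 6 with hς
  have hprod : (ς * V) ^ 2 ≤ D ^ 2 * (B * a) := by
    have hDB : 0 < D * B := by
      have : (1 + gam) * (D * B) > 0 := by linarith
      have h3 : (0 : ℝ) < 1 + gam := by norm_num [gam]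
      exact (pos_iff_pos_of_mul_pos (by linarith : 0 < (1 + gam) * (D * B))).1 h3
    have hDa : 0 ≤ D * a := by positivity
    have h3 : 3 * V * (65 / 10 ^ 16 * V) ≤ ((1 + gam) * (D * B)) * (2 * tau * (D * a)) := by
      apply mul_le_mul hB'.le ha' (by positivity)
      have : (0 : ℝ) < 1 + gam := by norm_num [gam]
      positivity
    have e : ((1 + gam) * (D * B)) * (2 * tau * (D * a)) = (1 + gam) * (2 * tau) * (D ^ 2 * (B * a)) := by
      ring
    rw [e] at h3
    have hc : (1 + gam) * (2 * tau) ≤ 12801 / 10 ^ 9 := by norm_num [gam, tau]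
    have h4 : 0 ≤ D ^ 2 * (B * a) := by positivity
    have h5 : (1 + gam) * (2 * tau) * (D ^ 2 * (B * a)) ≤ 12801 / 10 ^ 9 * (D ^ 2 * (B * a)) := by
      gcongr
    have h6 : 0 ≤ V ^ 2 := by positivity
    rw [hς]
    nlinarith
  have hsq : ς * V ≤ D * (Real.sqrt B * Real.sqrt a) := by
    have h0 : 0 ≤ D * (Real.sqrt B * Real.sqrt a) := by positivity
    have e : (D * (Real.sqrt B * Real.sqrt a)) ^ 2 = D ^ 2 * (B * a) := by
      rw [mul_pow, mul_pow, Real.sq_sqrt hB, Real.sq_sqrt ha]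
    rw [← e] at hprod
    exact le_of_sq_le_sq hprod h0
  have hsum0 : 0 ≤ B + Real.sqrt B * Real.sqrt a + a := by positivity
  have h1τ : 0 ≤ 1 - 2 * tau := by norm_num [tau]
  have h7 : (1 - 2 * tau) * (D * B + ς * V) ≤ r * (B + Real.sqrt B * Real.sqrt a + a) := by
    calc (1 - 2 * tau) * (D * B + ς * V)
        ≤ (1 - 2 * tau) * (D * B + D * (Real.sqrt B * Real.sqrt a) + D * a) := by
          have : 0 ≤ D * a := by positivity
          apply mul_le_mul_of_nonneg_left _ h1τ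
          linarith
      _ = (1 - 2 * tau) * D * (B + Real.sqrt B * Real.sqrt a + a) := by ring
      _ ≤ _ := by gcongr
  have h8 : (1 - 2 * tau) * (D * B + ς * V) ≤ 3 * V := by linarith
  set y := D * B with hy
  rw [hς] at h8
  norm_num [tau, gam] at h8 hB'
  linarith

section Main

variable {E : Type*} [NormedAddCommGroup E] [InnerProductSpace ℝ E] [FiniteDimensional ℝ E]
  [MeasurableSpace E] [BorelSpace E]

omit [FiniteDimensional ℝ E] [MeasurableSpace E] [BorelSpace E] in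
lemma height_left {K : Set E} {D : ℝ} {a x u : E} (hu : ‖u‖ = 1)
    (hD : ∀ x ∈ K, ∀ y ∈ K, ‖x - y‖ ≤ D) (hD0 : 0 < D) (hb : a + D • u ∈ K) (hx : x ∈ K) :
    0 ≤ ⟪u, x - a⟫ := by
  have h1 := hD x hx _ hb
  have e : x - (a + D • u) = (x - a) - D • u := by abel
  rw [e] at h1
  have h2 : ‖(x - a) - D • u‖ ^ 2 ≤ D ^ 2 := pow_le_pow_left₀ (norm_nonneg _) h1 2
  rw [norm_sub_sq_real, norm_smul, inner_smul_right, real_inner_comm, hu] at h2
  simp only [Real.norm_eq_abs, mul_one, sq_abs] at h2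
  have h3 : 0 ≤ ‖x - a‖ ^ 2 := by positivity
  have : 0 ≤ D * ⟪u, x - a⟫ := by nlinarith
  exact nonneg_of_mul_nonneg_right this hD0

omit [FiniteDimensional ℝ E] [MeasurableSpace E] [BorelSpace E] in
lemma height_right {K : Set E} {D : ℝ} {a w u : E} (hu : ‖u‖ = 1)
    (hD : ∀ x ∈ K, ∀ y ∈ K, ‖x - y‖ ≤ D) (hD0 : 0 < D) (ha : a ∈ K) (hw : w ∈ K) :
    0 ≤ ⟪u, a + D • u - w⟫ := by
  have h1 := hD w hw a ha
  have e : w - a = D • u - (a + D • u - w) := by abel
  rw [e] at h1
  have h2 : ‖D • u - (a + D • u - w)‖ ^ 2 ≤ D ^ 2 := pow_le_pow_left₀ (norm_nonneg _) h1 2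
  rw [norm_sub_sq_real, norm_smul, inner_smul_left, hu] at h2
  simp only [Real.norm_eq_abs, mul_one, sq_abs, conj_trivial] at h2
  have h3 : 0 ≤ ‖a + D • u - w‖ ^ 2 := by positivity
  have : 0 ≤ D * ⟪u, a + D • u - w⟫ := by nlinarith
  exact nonneg_of_mul_nonneg_right this hD0

omit [FiniteDimensional ℝ E] [MeasurableSpace E] [BorelSpace E] in
/-- Off the rims a long pair lies in the two slabs. -/
lemma pair_in_slabs {K : Set E} {D : ℝ} {a x w u : E} (hu : ‖u‖ = 1)
    (hD : ∀ x ∈ K, ∀ y ∈ K, ‖x - y‖ ≤ D) (hD0 : 0 < D) (ha : a ∈ K) (hb : a + D • u ∈ K)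
    (hnorm : ‖a + D • u - a‖ = D)
    (hx : x ∈ K) (hw : w ∈ K)
    (hx1 : x ∈ hom K (a + D • u) tA ∪ hom K a tB) (hx2 : x ∈ hom K (a + D • u) tB ∪ hom K a tA)
    (hw1 : w ∈ hom K (a + D • u) tA ∪ hom K a tB) (hw2 : w ∈ hom K (a + D • u) tB ∪ hom K a tA)
    (hlong : (1 - eps) * D < ‖x - w‖) :
    (⟪u, x - a⟫ ≤ tau * D ∧ ⟪u, a + D • u - w⟫ ≤ tau * D) ∨
    (⟪u, w - a⟫ ≤ tau * D ∧ ⟪u, a + D • u - x⟫ ≤ tau * D) := by
  have hε0 : 0 ≤ eps := by norm_num [eps]
  have hε1 : eps ≤ 1 := by norm_num [eps]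
  have hη : 0 ≤ eta := by norm_num [eta]
  have h1 : 8 * eps ≤ tA := by norm_num [eps, tA]
  have h2 : tA ≤ 1 := by norm_num [tA]
  have h3 : 2 * eps ≤ tB * eta ^ 2 := by norm_num [eps, tB, eta]
  have h4 : 0 ≤ tB := by norm_num [tB]
  have h5 : tB ≤ 1 := by norm_num [tB]
  have hlong' : (1 - eps) * D < ‖w - x‖ := by rwa [norm_sub_rev]
  have nx := near_ends hD hD0 hε0 hε1 ha hb hnorm hη h1 h2 h3 h4 h5 hw hlong hx1 hx2
  have nw := near_ends hD hD0 hε0 hε1 ha hb hnorm hη h1 h2 h3 h4 h5 hx hlong' hw1 hw2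
  have hτ : eps + 2 * eta ^ 2 ≤ tau := by norm_num [eps, eta, tau]
  have hsmall : 2 * eta ≤ 1 - eps := by norm_num [eps, eta]
  have hsmall' : 2 * (eta * D) ≤ (1 - eps) * D := by nlinarith
  rcases nx with nx | nx <;> rcases nw with nw | nw
  · exfalso
    have : ‖x - w‖ ≤ ‖x - a‖ + ‖w - a‖ := by
      calc ‖x - w‖ = ‖(x - a) - (w - a)‖ := by congr 1; abel
        _ ≤ _ := norm_sub_le _ _
    linarith
  · left
    exact slab_of_long hu hD hD0 hε0 ha hb hx hw nx nw hlong hε1 hτ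
  · right
    exact slab_of_long hu hD hD0 hε0 ha hb hw hx nw nx hlong' hε1 hτ
  · exfalso
    have : ‖x - w‖ ≤ ‖x - (a + D • u)‖ + ‖w - (a + D • u)‖ := by
      calc ‖x - w‖ = ‖(x - (a + D • u)) - (w - (a + D • u))‖ := by congr 1; abel
        _ ≤ _ := norm_sub_le _ _
    linarith

lemma shadow_pos {K : Set E} (hi : (interior K).Nonempty) (v : E) :
    0 < volume ((Submodule.span ℝ {v})ᗮ.orthogonalProjectionOnto '' K) := by
  set π := (Submodule.span ℝ {v})ᗮ.orthogonalProjectionOnto with hπ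
  have hsurj : Function.Surjective π := by
    intro z
    exact ⟨z, by simp [hπ]⟩
  have hopen : IsOpen (π '' interior K) := ContinuousLinearMap.isOpenMap _ hsurj _ isOpen_interior
  have hpos := hopen.measure_pos volume (hi.image π)
  exact hpos.trans_le (measure_mono (image_mono interior_subset))

/-- The final step from a sub-body to the bound. -/
lemma conclude {ι : Type*} [Fintype ι] (U : ι → E) (hU : ∀ i, ‖U i‖ = 1)
    (B : (i : ι) → Set (Submodule.span ℝ {U i})ᗮ) {K A' : Set E} (hA' : MeasurableSet A')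
    (hAK : A' ⊆ K) (hcov : ∀ x ∈ K, ∃ i, (Submodule.span ℝ {U i})ᗮ.orthogonalProjectionOnto x ∈ B i)
    {d : ℝ} (hd0 : 0 < d) (hdist : ∀ x ∈ A', ∀ y ∈ A', ‖x - y‖ ≤ d) {F : Type*} [MeasurableSpace F]
    {ν : Measure F} {Sh : Set F} (hSh : ν Sh ≠ ⊤) {c : ℝ} (hc : 0 ≤ c)
    (hfin : volume A' ≠ ⊤) (hcA : d * (c * (ν Sh).toReal) ≤ (volume A').toReal) :
    ENNReal.ofReal c * ν Sh ≤ ∑ i, volume (B i) := by
  have h1 := E_cover U hU B hA' hdist (fun x hx => hcov x (hAK hx))
  have hAr : 0 ≤ (ν Sh).toReal := ENNReal.toReal_nonneg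
  have h2 : ENNReal.ofReal d * (ENNReal.ofReal c * ν Sh) ≤ ENNReal.ofReal d * ∑ i, volume (B i) := by
    calc ENNReal.ofReal d * (ENNReal.ofReal c * ν Sh)
        = ENNReal.ofReal (d * (c * (ν Sh).toReal)) := by
          rw [ENNReal.ofReal_mul hd0.le, ENNReal.ofReal_mul hc, ENNReal.ofReal_toReal hSh]
      _ ≤ ENNReal.ofReal (volume A').toReal := ENNReal.ofReal_le_ofReal hcA
      _ = volume A' := ENNReal.ofReal_toReal hfin
      _ ≤ _ := h1
  exact (ENNReal.mul_le_mul_iff_right (by simpa using hd0) ENNReal.ofReal_ne_top).1 h2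

/-- The case of two fat slabs: a long translation with a large overlap gives a direction with a small
shadow. -/
lemma fat_case (hE : finrank ℝ E = 3) {K : Set E} (hc : Convex ℝ K) (hK : IsCompact K)
    (hi : (interior K).Nonempty) {ι : Type*} [Fintype ι] (U : ι → E) (hU : ∀ i, ‖U i‖ = 1)
    (B : (i : ι) → Set (Submodule.span ℝ {U i})ᗮ)
    (hcov : ∀ x ∈ K, ∃ i, (Submodule.span ℝ {U i})ᗮ.orthogonalProjectionOnto x ∈ B i)
    {D : ℝ} (hD0 : 0 < D) (hD : ∀ x ∈ K, ∀ y ∈ K, ‖x - y‖ ≤ D) {t : E}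
    (ht1 : (1 - 2 * tau) * D ≤ ‖t‖) (ht2 : ‖t‖ ≤ D)
    (hov : ENNReal.ofReal (65 / 10 ^ 16 * (volume K).toReal) < volume (K ∩ (fun z => z - t) ⁻¹' K)) :
    ∃ v : E, ‖v‖ = 1 ∧ ENNReal.ofReal ((1 + gam) / 3)
        * volume ((Submodule.span ℝ {v})ᗮ.orthogonalProjectionOnto '' K) ≤ ∑ i, volume (B i) := by
  have hVpos : 0 < volume K :=
    (isOpen_interior.measure_pos volume hi).trans_le (measure_mono interior_subset)
  have hVfin : volume K ≠ ⊤ := hK.measure_lt_top.ne
  set V := (volume K).toReal with hVdef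
  have hV0 : 0 < V := ENNReal.toReal_pos hVpos.ne' hVfin
  have hgam0 : 0 ≤ (1 + gam) / 3 := by norm_num [gam]
  have h1τ : 0 < 1 - 2 * tau := by norm_num [tau]
  have hr0 : 0 < ‖t‖ := lt_of_lt_of_le (by positivity) ht1
  set r := ‖t‖ with hr
  set v : E := (1 / r) • t with hv
  have hvn : ‖v‖ = 1 := by
    rw [hv, norm_smul, ← hr, Real.norm_eq_abs, abs_of_pos (by positivity)]
    field_simp
  have hrv : r • v = t := by
    rw [hv, smul_smul, mul_one_div_cancel hr0.ne', one_smul]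
  -- the section over the long chords
  have hZc : IsCompact (Zr (splitEquiv v hvn '' K) r) := isCompact_Zr (image_compact v hvn hK) r
  have hZfin : volume (Zr (splitEquiv v hvn '' K) r) ≠ ⊤ := hZc.measure_lt_top.ne
  set a0 := (volume (Zr (splitEquiv v hvn '' K) r)).toReal with ha0
  have ha00 : 0 ≤ a0 := ENNReal.toReal_nonneg
  have hKr := E_Kr_le v hvn hK (r := r) hD
  rw [hrv] at hKr
  have hlt : ENNReal.ofReal (65 / 10 ^ 16 * V) < ENNReal.ofReal (D - r) * ENNReal.ofReal a0 := by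
    rw [ha0, ENNReal.ofReal_toReal hZfin]
    exact hov.trans_le hKr
  rw [← ENNReal.ofReal_mul (by linarith)] at hlt
  have hlt2 : 65 / 10 ^ 16 * V < (D - r) * a0 := by
    by_contra h
    push Not at h
    exact absurd hlt (not_lt.2 (ENNReal.ofReal_le_ofReal h))
  have hle2 : 65 / 10 ^ 16 * V ≤ (2 * tau * D) * a0 := by
    have h1 : D - r ≤ 2 * tau * D := by nlinarith
    have h2 : (D - r) * a0 ≤ (2 * tau * D) * a0 := mul_le_mul_of_nonneg_right h1 ha00
    linarith
  have ha0pos : 0 < a0 := by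
    by_contra h
    have : a0 = 0 := le_antisymm (not_lt.1 h) ha00
    rw [this, mul_zero] at hlt2
    have h3 : 0 < 65 / 10 ^ 16 * V := by positivity
    linarith
  have hZne : (Zr (splitEquiv v hvn '' K) r).Nonempty := by
    by_contra h
    rw [not_nonempty_iff_eq_empty] at h
    rw [ha0, h] at ha0pos
    simp at ha0pos
  have hrs := E_rs hE v hvn hc hK (shadow_pos hi v) hr0 hZne
  have hSvfin : volume ((Submodule.span ℝ {v})ᗮ.orthogonalProjectionOnto '' K) ≠ ⊤ :=
    (hK.image (ContinuousLinearMap.continuous _)).measure_lt_top.ne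
  set B0 := (volume ((Submodule.span ℝ {v})ᗮ.orthogonalProjectionOnto '' K)).toReal with hB0
  have hB00 : 0 ≤ B0 := ENNReal.toReal_nonneg
  have hrs2 : r * (B0 + Real.sqrt B0 * Real.sqrt a0 + a0) / 3 ≤ V := by
    have := ENNReal.toReal_mono hVfin hrs
    rwa [ENNReal.toReal_ofReal (by positivity)] at this
  have hfinal := arith_last hV0 hD0 hB00 ha00 ht1 hle2 hrs2
  exact ⟨v, hvn, conclude U hU B hK.measurableSet subset_rfl hcov hD0 hD hSvfin hgam0 hVfin hfinal⟩

/-- **Main theorem.** For a finite covering of a convex body in a Euclidean three-space by cylinders,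
the sum of the base areas is at least `(1 + 10⁻⁹) / 3` times the area of the shadow of the body in
some direction. -/
theorem abs_main (hE : finrank ℝ E = 3) {K : Set E} (hc : Convex ℝ K) (hK : IsCompact K)
    (hi : (interior K).Nonempty) {ι : Type*} [Fintype ι] (U : ι → E) (hU : ∀ i, ‖U i‖ = 1)
    (B : (i : ι) → Set (Submodule.span ℝ {U i})ᗮ)
    (hcov : ∀ x ∈ K, ∃ i, (Submodule.span ℝ {U i})ᗮ.orthogonalProjectionOnto x ∈ B i) :
    ∃ v : E, ‖v‖ = 1 ∧ ENNReal.ofReal ((1 + gam) / 3)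
        * volume ((Submodule.span ℝ {v})ᗮ.orthogonalProjectionOnto '' K) ≤ ∑ i, volume (B i) := by
  haveI : Nontrivial E := nontrivial_of_finrank_pos (R := ℝ) (by omega)
  have hKne : K.Nonempty := hi.mono interior_subset
  have hVpos : 0 < volume K :=
    (isOpen_interior.measure_pos volume hi).trans_le (measure_mono interior_subset)
  have hVfin : volume K ≠ ⊤ := hK.measure_lt_top.ne
  set V := (volume K).toReal with hVdef
  have hV0 : 0 < V := ENNReal.toReal_pos hVpos.ne' hVfin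
  have hVof : volume K = ENNReal.ofReal V := (ENNReal.ofReal_toReal hVfin).symm
  have hgam0 : 0 ≤ (1 + gam) / 3 := by norm_num [gam]
  -- a diameter
  obtain ⟨⟨a, b⟩, ⟨ha, hb⟩, hmax⟩ := (hK.prod hK).exists_isMaxOn (hKne.prod hKne)
    (f := fun p : E × E => ‖p.2 - p.1‖) (by fun_prop)
  have hD' : ∀ x ∈ K, ∀ y ∈ K, ‖y - x‖ ≤ ‖b - a‖ := fun x hx y hy =>
    hmax (mk_mem_prod hx hy)
  set D := ‖b - a‖ with hDdef
  have hD0 : 0 < D := by
    by_contra h
    have hD00 : D = 0 := le_antisymm (not_lt.1 h) (norm_nonneg _)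
    have hsub : K.Subsingleton := by
      intro x hx y hy
      have := hD' x hx y hy
      rw [hD00] at this
      have h2 : ‖y - x‖ = 0 := le_antisymm this (norm_nonneg _)
      exact (sub_eq_zero.1 (norm_eq_zero.1 h2)).symm
    exact hVpos.ne' (hsub.measure_zero volume)
  have hD : ∀ x ∈ K, ∀ y ∈ K, ‖x - y‖ ≤ D := fun x hx y hy => hD' y hy x hx
  set u : E := (1 / D) • (b - a) with hudef
  have hu : ‖u‖ = 1 := by
    rw [hudef, norm_smul, ← hDdef, Real.norm_eq_abs, abs_of_pos (by positivity)]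
    field_simp
  have hbu : a + D • u = b := by
    rw [hudef, smul_smul, mul_one_div_cancel hD0.ne', one_smul]
    abel
  have hb2 : a + D • u ∈ K := by rwa [hbu]
  have hnorm : ‖a + D • u - a‖ = D := by
    rw [hbu]
  set b' := a + D • u with hb'
  -- the shadow in the direction of the diameter
  set S := (Submodule.span ℝ {u})ᗮ.orthogonalProjectionOnto '' K with hS
  have hSfin : volume S ≠ ⊤ := (hK.image (ContinuousLinearMap.continuous _)).measure_lt_top.ne
  set A := (volume S).toReal with hA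
  have hA0 : 0 ≤ A := ENNReal.toReal_nonneg
  have hSof : volume S = ENNReal.ofReal A := (ENNReal.ofReal_toReal hSfin).symm
  set w := D * A / 3 with hw
  have hw0 : 0 ≤ w := by positivity
  -- Rogers-Shephard
  have hRS : w ≤ V := by
    have h1 := E_cone hE u hu hc hK hD0 ha hb2 hD0.le le_rfl
    have h2 := (le_add_self).trans h1
    rw [div_self hD0.ne'] at h2
    have h3 := ENNReal.toReal_mono hVfin h2
    rw [ENNReal.toReal_mul, ENNReal.toReal_ofReal (by norm_num; positivity)] at h3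
    have e : D * (1 - (1 - 1) ^ 3) / 3 = D / 3 := by norm_num
    rw [e] at h3
    rw [hw]
    calc D * A / 3 = D / 3 * A := by ring
      _ ≤ V := h3
  by_cases hcase : (1 + eps) * w ≤ V
  · -- the body itself is good enough
    refine ⟨u, hu, conclude U hU B hK.measurableSet subset_rfl hcov hD0 hD hSfin hgam0 hVfin ?_⟩
    have e : D * ((1 + gam) / 3 * A) = (1 + gam) * w := by
      rw [hw]
      ring
    rw [e]
    have : (1 + gam) * w ≤ (1 + eps) * w := by
      apply mul_le_mul_of_nonneg_right _ hw0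
      norm_num [gam, eps]
    linarith
  push Not at hcase
  -- the two rims
  set R1 := K \ (hom K b' tA ∪ hom K a tB) with hR1
  set R2 := K \ (hom K b' tB ∪ hom K a tA) with hR2
  have hP1c : IsCompact (hom K b' tA) := hom_compact hK _ _
  have hP2c : IsCompact (hom K b' tB) := hom_compact hK _ _
  have hQ1c : IsCompact (hom K a tA) := hom_compact hK _ _
  have hQ2c : IsCompact (hom K a tB) := hom_compact hK _ _
  have hR1m : MeasurableSet R1 :=
    hK.measurableSet.diff (hP1c.union hQ2c).measurableSet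
  have hR2m : MeasurableSet R2 :=
    hK.measurableSet.diff (hP2c.union hQ1c).measurableSet
  have hR1fin : volume R1 ≠ ⊤ := ((measure_mono sdiff_subset).trans_lt hK.measure_lt_top).ne
  have hR2fin : volume R2 ≠ ⊤ := ((measure_mono sdiff_subset).trans_lt hK.measure_lt_top).ne
  have htA0 : 0 ≤ tA := by norm_num [tA]
  have htB0 : 0 ≤ tB := by norm_num [tB]
  have htAB : tA + tB ≤ 1 := by norm_num [tA, tB]
  have htBA : tB + tA ≤ 1 := by norm_num [tA, tB]
  have hr1 : (volume R1).toReal ≤ 21 / 10 ^ 10 * V := by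
    have h1 := rim_bound hE hc hK u hu hD0 ha hb2 htA0 htB0 htAB
    apply rim_arith1 hV0.le _ hcase
    calc _ ≤ _ := h1
      _ = _ := by rw [hw]; ring
  have hr2 : (volume R2).toReal ≤ 21 / 10 ^ 10 * V := by
    have h1 := rim_bound hE hc hK u hu hD0 ha hb2 htB0 htA0 htBA
    apply rim_arith2 hV0.le _ hcase
    calc _ ≤ _ := h1
      _ = _ := by rw [hw]; ring
  -- the two slabs
  set X := K ∩ {x | ⟪u, x - a⟫ ≤ tau * D} with hX
  set Y := K ∩ {x | ⟪u, b' - x⟫ ≤ tau * D} with hY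
  have hXm : MeasurableSet X := hK.measurableSet.inter
    (isClosed_le (by fun_prop) continuous_const).measurableSet
  have hYm : MeasurableSet Y := hK.measurableSet.inter
    (isClosed_le (by fun_prop) continuous_const).measurableSet
  have hXfin : volume X ≠ ⊤ := ((measure_mono inter_subset_left).trans_lt hK.measure_lt_top).ne
  have hYfin : volume Y ≠ ⊤ := ((measure_mono inter_subset_left).trans_lt hK.measure_lt_top).ne
  have hmemU1 : ∀ x ∈ K, x ∉ R1 → x ∈ hom K b' tA ∪ hom K a tB := by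
    intro x hx hn
    by_contra h
    exact hn ⟨hx, h⟩
  have hmemU2 : ∀ x ∈ K, x ∉ R2 → x ∈ hom K b' tB ∪ hom K a tA := by
    intro x hx hn
    by_contra h
    exact hn ⟨hx, h⟩
  have hcut : ∀ N : Set E, MeasurableSet N →  volume N ≠ ⊤ →
      (∀ x ∈ K, ∀ y ∈ K, x ∉ R1 → x ∉ R2 → y ∉ R1 → y ∉ R2 → (1 - eps) * D < ‖x - y‖ →
        x ∈ N ∨ y ∈ N) → (volume N).toReal ≤ 2 / 10 ^ 9 * V →
      ∃ v : E, ‖v‖ = 1 ∧ ENNReal.ofReal ((1 + gam) / 3)
        * volume ((Submodule.span ℝ {v})ᗮ.orthogonalProjectionOnto '' K) ≤ ∑ i, volume (B i) := by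
    intro N hNm hNfin hN hNv
    set A' := K \ (R1 ∪ R2 ∪ N) with hA'
    have hA'm : MeasurableSet A' := hK.measurableSet.diff ((hR1m.union hR2m).union hNm)
    have hA'fin : volume A' ≠ ⊤ := ((measure_mono sdiff_subset).trans_lt hK.measure_lt_top).ne
    have hd0 : 0 < (1 - eps) * D := by
      have : 0 < 1 - eps := by norm_num [eps]
      positivity
    refine ⟨u, hu, conclude U hU B hA'm sdiff_subset hcov hd0 ?_ hSfin hgam0 hA'fin ?_⟩
    · rintro x ⟨hx, hxn⟩ y ⟨hy, hyn⟩
      by_contra hlong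
      push Not at hlong
      simp only [mem_union, not_or] at hxn hyn
      rcases hN x hx y hy hxn.1.1 hxn.1.2 hyn.1.1 hyn.1.2 hlong with h | h
      · exact hxn.2 h
      · exact hyn.2 h
    · have hcov2 : K ⊆ A' ∪ (R1 ∪ R2 ∪ N) := by
        intro x hx
        by_cases h : x ∈ R1 ∪ R2 ∪ N
        · exact Or.inr h
        · exact Or.inl ⟨hx, h⟩
      have h1 : volume K ≤ volume A' + (volume R1 + volume R2 + volume N) :=
        calc volume K ≤ volume (A' ∪ (R1 ∪ R2 ∪ N)) := measure_mono hcov2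
          _ ≤ volume A' + volume (R1 ∪ R2 ∪ N) := measure_union_le _ _
          _ ≤ volume A' + (volume (R1 ∪ R2) + volume N) := by gcongr; exact measure_union_le _ _
          _ ≤ _ := by gcongr; exact measure_union_le _ _
      have h2 := ENNReal.toReal_mono (by finiteness) h1
      rw [ENNReal.toReal_add hA'fin (by finiteness), ENNReal.toReal_add (by finiteness) hNfin,
        ENNReal.toReal_add hR1fin hR2fin] at h2
      have e : (1 - eps) * D * ((1 + gam) / 3 * A) = (1 - eps) * (1 + gam) * w := by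
        rw [hw]
        ring
      rw [e]
      have h3 : (1 - eps) * (1 + gam) * w ≤ (1 - eps) * (1 + gam) * V := by
        apply mul_le_mul_of_nonneg_left hRS
        norm_num [eps, gam]
      have h4 : (1 - eps) * (1 + gam) * V ≤ (1 - 62 / 10 ^ 10) * V := by
        apply mul_le_mul_of_nonneg_right _ hV0.le
        norm_num [eps, gam]
      have h5 : (volume K).toReal = V := rfl
      linarith
  -- cutting the slab near `a`
  by_cases hXsmall : (volume X).toReal ≤ 2 / 10 ^ 9 * V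
  · apply hcut X hXm hXfin _ hXsmall
    intro x hx y hy hx1 hx2 hy1 hy2 hlong
    rcases pair_in_slabs hu hD hD0 ha hb2 hnorm hx hy (hmemU1 x hx hx1) (hmemU2 x hx hx2)
      (hmemU1 y hy hy1) (hmemU2 y hy hy2) hlong with h | h
    · exact Or.inl ⟨hx, h.1⟩
    · exact Or.inr ⟨hy, h.1⟩
  by_cases hYsmall : (volume Y).toReal ≤ 2 / 10 ^ 9 * V
  · apply hcut Y hYm hYfin _ hYsmall
    intro x hx y hy hx1 hx2 hy1 hy2 hlong
    rcases pair_in_slabs hu hD hD0 ha hb2 hnorm hx hy (hmemU1 x hx hx1) (hmemU2 x hx hx2)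
      (hmemU1 y hy hy1) (hmemU2 y hy hy2) hlong with h | h
    · exact Or.inr ⟨hy, h.2⟩
    · exact Or.inl ⟨hx, h.2⟩
  push Not at hXsmall hYsmall
  -- both slabs are fat: a long translation has a large overlap
  have hτ0 : 0 ≤ tau := by norm_num [tau]
  have hl : ∀ x ∈ X, ∀ y ∈ Y, ⟪u, y - x⟫ ∈ Icc ((1 - 2 * tau) * D) ((1 - 2 * tau) * D + 2 * tau * D) := by
    rintro x ⟨hxK, hx⟩ y ⟨hyK, hy⟩
    simp only [mem_ofPred_eq] at hx hy
    have h1 := height_left hu hD hD0 hb2 hxK
    have h2 := height_right hu hD hD0 ha hyK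
    have huu : ⟪u, u⟫ = 1 := by
      rw [real_inner_self_eq_norm_sq, hu]
      norm_num
    have e : ⟪u, y - x⟫ = D - ⟪u, b' - y⟫ - ⟪u, x - a⟫ := by
      have e1 : y - x = D • u - (b' - y) - (x - a) := by
        rw [hb']
        abel
      rw [e1, inner_sub_right, inner_sub_right, inner_smul_right, huu, mul_one]
    rw [e]
    constructor <;> nlinarith
  have hm : ENNReal.ofReal (65 / 10 ^ 16 * V) * (16 * volume S * ENNReal.ofReal (2 * tau * D))
      < volume X * volume Y := by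
    have hXof : volume X = ENNReal.ofReal (volume X).toReal := (ENNReal.ofReal_toReal hXfin).symm
    have hYof : volume Y = ENNReal.ofReal (volume Y).toReal := (ENNReal.ofReal_toReal hYfin).symm
    set x0 := (volume X).toReal with hx0
    set y0 := (volume Y).toReal with hy0
    rw [hXof, hYof, hSof, ← ENNReal.ofReal_mul (by positivity)]
    have e16 : (16 : ℝ≥0∞) = ENNReal.ofReal 16 := by simp
    rw [e16, ← ENNReal.ofReal_mul (by norm_num), ← ENNReal.ofReal_mul (by positivity),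
      ← ENNReal.ofReal_mul (by positivity)]
    have hx0pos : 0 < x0 := lt_trans (by positivity) hXsmall
    have hy0pos : 0 < y0 := lt_trans (by positivity) hYsmall
    apply (ENNReal.ofReal_lt_ofReal_iff (by positivity)).2
    have h1 : (2 / 10 ^ 9 * V) * (2 / 10 ^ 9 * V) < x0 * y0 :=
      mul_lt_mul'' hXsmall hYsmall (by positivity) (by positivity)
    have h2 : D * A ≤ 3 * V := by
      rw [hw] at hRS
      linarith
    calc 65 / 10 ^ 16 * V * (16 * A * (2 * tau * D))
        = (65 / 10 ^ 16 * V) * (16 * (2 * tau)) * (D * A) := by ring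
      _ ≤ (65 / 10 ^ 16 * V) * (16 * (2 * tau)) * (3 * V) := by gcongr
      _ ≤ (2 / 10 ^ 9 * V) * (2 / 10 ^ 9 * V) := by
        have : 0 ≤ V * V := by positivity
        norm_num [tau]
        nlinarith
      _ < _ := h1
  obtain ⟨x, hx, y, hy, hov⟩ := exists_overlap hE u hu hc hK (shadow_pos hi u) hXm hYm
    inter_subset_left inter_subset_left hl hm
  have hxK : x ∈ K := hx.1
  have hyK : y ∈ K := hy.1
  have ht1 : (1 - 2 * tau) * D ≤ ‖y - x‖ := by
    have h1 := (hl x hx y hy).1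
    have h2 := real_inner_le_norm u (y - x)
    rw [hu, one_mul] at h2
    linarith
  have ht2 : ‖y - x‖ ≤ D := hD y hyK x hxK
  have hov2 : volume (Y ∩ (fun z => z - (y - x)) ⁻¹' X) ≤ volume (K ∩ (fun z => z - (y - x)) ⁻¹' K) := by
    apply measure_mono
    rintro z ⟨h1, h2⟩
    exact ⟨h1.1, h2.1⟩
  exact fat_case hE hc hK hi U hU B hcov hD0 hD ht1 ht2 (hov.trans_le hov2)

end Main

end Vale.Agent.Lib.P243.Abs
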