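import Vale.Agent.Lib.P243.Abs1

open MeasureTheory Set Module Filter Topology
open scoped ENNReal Pointwise

namespace Vale.Agent.Lib.P243.Cop

open Vale.Agent.Lib.P243 Vale.Agent.Lib.P243.Abs

/-- The integral of the square of an affine function. -/
lemma lintegral_sq_affine {α β c d : ℝ} (hcd : c ≤ d) (hβ : β ≠ 0) :
    ∫⁻ l in Ioo c d, ENNReal.ofReal ((α + β * l) ^ 2)
      = ENNReal.ofReal (((α + β * d) ^ 3 - (α + β * c) ^ 3) / (3 * β)) := by
  have hcont : Continuous fun l : ℝ => (α + β * l) ^ 2 := by fun_prop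
  have hint : IntegrableOn (fun l : ℝ => (α + β * l) ^ 2) (Ioo c d) :=
    (hcont.continuousOn.integrableOn_compact isCompact_Icc).mono_set Ioo_subset_Icc_self
  rw [← ofReal_integral_eq_lintegral_ofReal hint (Eventually.of_forall fun l => sq_nonneg _)]
  congr 1
  rw [← integral_Ioc_eq_integral_Ioo, ← intervalIntegral.integral_of_le hcd]
  have hd : ∀ l ∈ uIcc c d, HasDerivAt (fun l : ℝ => (α + β * l) ^ 3 / (3 * β)) ((α + β * l) ^ 2) l := by
    intro l _
    have h1 : HasDerivAt (fun l : ℝ => α + β * l) β l := by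
      simpa using ((hasDerivAt_id l).const_mul β).const_add α
    have h2 := (h1.pow 3).div_const (3 * β)
    exact h2.congr_deriv (by
      push_cast
      field_simp)
  rw [intervalIntegral.integral_eq_sub_of_hasDerivAt hd (hcont.intervalIntegrable _ _)]
  ring

section Level

variable {W : Type*} [NormedAddCommGroup W] [InnerProductSpace ℝ W] [FiniteDimensional ℝ W]
  [MeasurableSpace W] [BorelSpace W]

/-- The level sets of the fibre length. -/
def G (K : Set (W × ℝ)) (l : ℝ) : Set W := {y | l ≤ gl K y}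

lemma measurableSet_G {K : Set (W × ℝ)} (hK : IsCompact K) (l : ℝ) : MeasurableSet (G K l) :=
  measurable_gl hK measurableSet_Ici

lemma G_subset_shadow {K : Set (W × ℝ)} {l : ℝ} (hl : 0 < l) : G K l ⊆ Prod.fst '' K := by
  intro y hy
  have h1 : 0 < gl K y := lt_of_lt_of_le hl hy
  have h2 : (fib K y).Nonempty := by
    by_contra h
    rw [not_nonempty_iff_eq_empty] at h
    simp [gl, h] at h1
  obtain ⟨z, hz⟩ := h2
  exact ⟨(y, z), hz, rfl⟩

lemma mem_Zr_of_le_gl {K : Set (W × ℝ)} (hc : Convex ℝ K) (hK : IsCompact K) {l : ℝ} {y : W}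
    (hl : 0 < l) (hy : l ≤ gl K y) : y ∈ Zr K l := by
  obtain ⟨a, b, ha, hb, hab⟩ := exists_fib_extremes hK (G_subset_shadow hl hy)
  have h1 : volume (fib K y) ≤ ENNReal.ofReal (b - a) := by
    calc volume (fib K y) ≤ volume (Icc a b) := measure_mono hab
      _ = _ := Real.volume_Icc
  have h2 : gl K y ≤ b - a := by
    have := ENNReal.toReal_mono ENNReal.ofReal_ne_top h1
    have hab' : a ≤ b := (hab ha).2
    rwa [ENNReal.toReal_ofReal (by linarith)] at this
  refine ⟨a, ha, ?_⟩
  exact (fib_convex hc y).ordConnected.out ha hb ⟨by linarith, by linarith⟩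

variable (hW : finrank ℝ W = 2)
include hW

/-- Concavity of the square root of the level area along rays from height zero. -/
lemma star {K : Set (W × ℝ)} (hc : Convex ℝ K) (hK : IsCompact K)
    (hS : 0 < volume (Prod.fst '' K)) {l m : ℝ} (hl : 0 < l) (hm0 : 0 < m) (hm1 : m < 1)
    (hne : (G K l).Nonempty) :
    ((1 - m) * Real.sqrt (volume (Prod.fst '' K)).toReal + m * Real.sqrt (volume (G K l)).toReal) ^ 2
      ≤ (volume (G K (m * l))).toReal := by
  have hSc : IsCompact (Prod.fst '' K) := hK.image continuous_fst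
  have hGfin : ∀ {r : ℝ}, 0 < r → volume (G K r) ≠ ⊤ := fun hr =>
    ne_top_of_le_ne_top hSc.measure_lt_top.ne (measure_mono (G_subset_shadow hr))
  have h := bm_add hW hSc.measurableSet (measurableSet_G hK l) (measurableSet_G hK (m * l))
    hSc.measure_lt_top.ne (hGfin hl) hS hne hm0 hm1 (by
      intro x hx y hy
      exact level_mem hc hK hx (mem_Zr_of_le_gl hc hK hl hy) hl.le hm0.le hm1.le)
  have h2 := ENNReal.toReal_mono (hGfin (mul_pos hm0 hl)) h
  rwa [ENNReal.toReal_ofReal (sq_nonneg _)] at h2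

end Level

end Vale.Agent.Lib.P243.Cop
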