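import Vale.Agent.Lib.P243.Cop6

open MeasureTheory Set Module Filter Topology
open scoped ENNReal Pointwise

namespace Vale.Agent.Lib.P243.Cop

/-- The crossing point of a function whose square root is concave along rays with the square of
a line. -/
lemma crossing {s : ℝ → ℝ} {p q : ℝ} (hq : 0 < q) (hqp : q < p) (hs0 : ∀ l, 0 ≤ s l)
    (hanti : ∀ l l', 0 < l → l ≤ l' → s l' ≤ s l)
    (hstar : ∀ l m, 0 < l → 0 < m → m < 1 → 0 < s l →
      ((1 - m) * p + m * Real.sqrt (s l)) ^ 2 ≤ s (m * l))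
    (hl0 : ∃ l0, 0 < l0 ∧ q ^ 2 ≤ s l0) (hR : ∃ R, ∀ l, R < l → s l < q ^ 2) :
    ∃ lam, 0 < lam ∧ (∀ l, 0 < l → l < lam → (p + (q - p) / lam * l) ^ 2 ≤ s l) ∧
      (∀ l, lam < l → s l ≤ (max (p + (q - p) / lam * l) 0) ^ 2) := by
  obtain ⟨l0, hl00, hl0s⟩ := hl0
  obtain ⟨R, hR⟩ := hR
  let Q : Set ℝ := {l | 0 < l ∧ q ^ 2 ≤ s l}
  have hQne : Q.Nonempty := ⟨l0, hl00, hl0s⟩
  have hQb : BddAbove Q := by
    refine ⟨R, fun l hl => ?_⟩
    by_contra h
    rw [not_le] at h
    have := hR l h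
    linarith [hl.2]
  set lam := sSup Q with hlam
  have hlam0 : 0 < lam := lt_of_lt_of_le hl00 (le_csSup hQb ⟨hl00, hl0s⟩)
  have hp : 0 < p := hq.trans hqp
  refine ⟨lam, hlam0, ?_, ?_⟩
  · -- below the crossing
    intro l hl hll
    have hev : ∀ᶠ l' in 𝓝[<] lam, ((1 - l / l') * p + l / l' * q) ^ 2 ≤ s l := by
      have h1 : Ioo l lam ∈ 𝓝[<] lam := Ioo_mem_nhdsLT hll
      filter_upwards [h1] with l' hl'
      obtain ⟨l'', hl''Q, hl''⟩ := exists_lt_of_lt_csSup hQne hl'.2
      have hl'0 : 0 < l' := hl.trans hl'.1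
      have hs : q ^ 2 ≤ s l' := hl''Q.2.trans (hanti l' l'' hl'0 hl''.le)
      have hm0 : 0 < l / l' := div_pos hl hl'0
      have hm1 : l / l' < 1 := (div_lt_one hl'0).2 hl'.1
      have h2 := hstar l' (l / l') hl'0 hm0 hm1 (lt_of_lt_of_le (by positivity) hs)
      rw [div_mul_cancel₀ _ hl'0.ne'] at h2
      refine le_trans ?_ h2
      have hsq : q ≤ Real.sqrt (s l') := Real.le_sqrt_of_sq_le hs
      have h3 : 0 ≤ (1 - l / l') * p + l / l' * q := by
        have : 0 < 1 - l / l' := by linarith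
        positivity
      have h4 : (1 - l / l') * p + l / l' * q ≤ (1 - l / l') * p + l / l' * Real.sqrt (s l') := by
        have := mul_le_mul_of_nonneg_left hsq hm0.le
        linarith
      exact pow_le_pow_left₀ h3 h4 2
    have hcont : Tendsto (fun l' : ℝ => ((1 - l / l') * p + l / l' * q) ^ 2) (𝓝[<] lam)
        (𝓝 (((1 - l / lam) * p + l / lam * q) ^ 2)) := by
      apply Tendsto.mono_left _ nhdsWithin_le_nhds
      apply ContinuousAt.tendsto
      have : lam ≠ 0 := hlam0.ne'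
      fun_prop (disch := assumption)
    have h5 := le_of_tendsto hcont hev
    have e : p + (q - p) / lam * l = (1 - l / lam) * p + l / lam * q := by
      field_simp
      ring
    rw [e]
    exact h5
  · -- above the crossing
    intro l hll
    have hl : 0 < l := hlam0.trans hll
    rcases (hs0 l).eq_or_lt with h0 | hspos
    · rw [← h0]
      positivity
    have hh : 0 < Real.sqrt (s l) := Real.sqrt_pos.2 hspos
    set h := Real.sqrt (s l) with hhdef
    have hev : ∀ᶠ l' in 𝓝[>] lam, (1 - l' / l) * p + l' / l * h ≤ q := by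
      have h1 : Ioo lam l ∈ 𝓝[>] lam := Ioo_mem_nhdsGT hll
      filter_upwards [h1] with l' hl'
      have hl'0 : 0 < l' := hlam0.trans hl'.1
      have hm0 : 0 < l' / l := div_pos hl'0 hl
      have hm1 : l' / l < 1 := (div_lt_one hl).2 hl'.2
      have h2 := hstar l (l' / l) hl hm0 hm1 hspos
      rw [div_mul_cancel₀ _ hl.ne'] at h2
      have hnot : s l' < q ^ 2 := by
        by_contra hcon
        rw [not_lt] at hcon
        have := le_csSup hQb (show l' ∈ Q from ⟨hl'0, hcon⟩)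
        linarith [hl'.1]
      have h3 : ((1 - l' / l) * p + l' / l * h) ^ 2 < q ^ 2 := lt_of_le_of_lt h2 hnot
      have h4 := abs_lt_of_sq_lt_sq h3 hq.le
      exact (lt_of_abs_lt h4).le
    have hcont : Tendsto (fun l' : ℝ => (1 - l' / l) * p + l' / l * h) (𝓝[>] lam)
        (𝓝 ((1 - lam / l) * p + lam / l * h)) := by
      apply Tendsto.mono_left _ nhdsWithin_le_nhds
      apply ContinuousAt.tendsto
      fun_prop
    have h5 := le_of_tendsto hcont hev
    have h6 : h ≤ p + (q - p) / lam * l := by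
      have h7 : lam / l * h ≤ q - (1 - lam / l) * p := by linarith
      have h8 : 0 < l / lam := div_pos hl hlam0
      have h9 := mul_le_mul_of_nonneg_left h7 h8.le
      have e1 : l / lam * (lam / l * h) = h := by
        field_simp
      have e2 : l / lam * (q - (1 - lam / l) * p) = p + (q - p) / lam * l := by
        field_simp
        ring
      rwa [e1, e2] at h9
    have h10 : s l = h ^ 2 := (Real.sq_sqrt (hs0 l)).symm
    rw [h10]
    exact pow_le_pow_left₀ hh.le (h6.trans (le_max_left _ _)) 2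

/-- The algebra of the one cylinder bound. -/
lemma cap_alg {p q lam i1 i2 : ℝ} (hq : 0 < q) (hqp : q < p) (hlam : 0 < lam)
    (h1 : (q ^ 3 - p ^ 3) / (3 * ((q - p) / lam)) ≤ i1)
    (h2 : i2 ≤ (0 - q ^ 3) / (3 * ((q - p) / lam))) :
    q ^ 2 * lam + i2 ≤ (q ^ 2 / p ^ 2 * (3 - 2 * (q / p))) * (i1 + i2) := by
  have hp : 0 < p := hq.trans hqp
  have hd : p - q ≠ 0 := (sub_pos.2 hqp).ne'
  have hd' : q - p ≠ 0 := (sub_neg.2 hqp).ne
  set f := q ^ 2 / p ^ 2 * (3 - 2 * (q / p)) with hf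
  have hr0 : 0 < q / p := div_pos hq hp
  have hr1 : q / p < 1 := (div_lt_one hp).2 hqp
  have hf0 : 0 ≤ f := by
    rw [hf]
    have : q ^ 2 / p ^ 2 = (q / p) ^ 2 := by rw [div_pow]
    rw [this]
    have : 0 ≤ 3 - 2 * (q / p) := by linarith
    positivity
  have hf1 : f ≤ 1 := by
    rw [hf]
    have : q ^ 2 / p ^ 2 = (q / p) ^ 2 := by rw [div_pow]
    rw [this]
    nlinarith [mul_nonneg (sq_nonneg (1 - q / p)) (by linarith : (0 : ℝ) ≤ 1 + 2 * (q / p))]
  set X1 := (q ^ 3 - p ^ 3) / (3 * ((q - p) / lam)) with hX1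
  set X2 := (0 - q ^ 3) / (3 * ((q - p) / lam)) with hX2
  have hid : q ^ 2 * lam + X2 = f * (X1 + X2) := by
    rw [hf, hX1, hX2]
    have hlam' : lam ≠ 0 := hlam.ne'
    have hp' : p ≠ 0 := hp.ne'
    field_simp
    ring
  have h3 : 0 ≤ f * (i1 - X1) := mul_nonneg hf0 (by linarith)
  have h4 : 0 ≤ (1 - f) * (X2 - i2) := mul_nonneg (by linarith) (by linarith)
  nlinarith

end Vale.Agent.Lib.P243.Cop
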