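import Vale.Agent.Lib.P243.Cop7

open MeasureTheory Set Module Filter Topology
open scoped ENNReal Pointwise

namespace Vale.Agent.Lib.P243.Cop

open Vale.Agent.Lib.P243 Vale.Agent.Lib.P243.Abs

section Cap

variable {W : Type*} [NormedAddCommGroup W] [InnerProductSpace ℝ W] [FiniteDimensional ℝ W]
  [MeasurableSpace W] [BorelSpace W]

lemma gl_le_of_bounded {K : Set (W × ℝ)} {R : ℝ} (hR : ∀ x ∈ K, ‖x‖ ≤ R) (y : W) (hR0 : 0 ≤ R) :
    gl K y ≤ 2 * R := by
  have hsub : fib K y ⊆ Icc (-R) R := by
    intro z hz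
    have h1 := hR _ hz
    have h2 : |z| ≤ ‖(y, z)‖ := by
      rw [Prod.norm_def]
      exact le_max_right _ _
    have h3 := abs_le.1 (h2.trans h1)
    exact h3
  have h2 : volume (fib K y) ≤ ENNReal.ofReal (2 * R) := by
    calc volume (fib K y) ≤ volume (Icc (-R) R) := measure_mono hsub
      _ = ENNReal.ofReal (2 * R) := by
        rw [Real.volume_Icc]
        congr 1
        ring
  have h3 := ENNReal.toReal_mono ENNReal.ofReal_ne_top h2
  rwa [ENNReal.toReal_ofReal (by positivity)] at h3

/-- The volume captured by one cylinder, as a layer cake bound. -/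
lemma cap_layer {K : Set (W × ℝ)} (hK : IsCompact K) {B : Set W} (hB : MeasurableSet B) :
    (volume.prod volume) (K ∩ Prod.fst ⁻¹' B) = ∫⁻ l in Ioi (0 : ℝ), volume (G K l ∩ B) := by
  have hm : MeasurableSet (K ∩ Prod.fst ⁻¹' B) := hK.measurableSet.inter (measurable_fst hB)
  rw [Measure.prod_apply hm]
  have h1 : ∀ y : W, volume (Prod.mk y ⁻¹' (K ∩ Prod.fst ⁻¹' B))
      = B.indicator (fun y => ENNReal.ofReal (gl K y)) y := by
    intro y
    by_cases hy : y ∈ B
    · rw [indicator_of_mem hy]
      simp only [gl]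
      rw [ENNReal.ofReal_toReal (vol_fib_ne_top hK y)]
      congr 1
      ext z
      simp [fib, hy]
    · rw [indicator_of_notMem hy]
      have : Prod.mk y ⁻¹' (K ∩ Prod.fst ⁻¹' B) = ∅ := by
        ext z
        simp [hy]
      rw [this]
      simp
  simp only [h1]
  rw [lintegral_indicator hB]
  have h2 := lintegral_eq_lintegral_meas_le (volume.restrict B) (f := gl K)
    (Eventually.of_forall fun y => ENNReal.toReal_nonneg) (measurable_gl hK).aemeasurable
  rw [h2]
  refine setLIntegral_congr_fun measurableSet_Ioi fun l _ => ?_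
  show (volume.restrict B) (G K l) = _
  rw [Measure.restrict_apply (measurableSet_G hK l)]

variable (hW : finrank ℝ W = 2)
include hW

/-- One cylinder: the relative volume captured by a base of relative area `ρ = q²/p²` is at most
`3 ρ - 2 ρ^(3/2)`. -/
theorem cap_le {K : Set (W × ℝ)} (hc : Convex ℝ K) (hK : IsCompact K)
    (hS : 0 < volume (Prod.fst '' K)) (hV : 0 < (volume.prod volume) K)
    {B : Set W} (hB : MeasurableSet B) (hB0 : 0 < volume B) (hBS : volume B < volume (Prod.fst '' K)) :
    (volume.prod volume) (K ∩ Prod.fst ⁻¹' B)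
      ≤ ENNReal.ofReal ((Real.sqrt (volume B).toReal) ^ 2 / (Real.sqrt (volume (Prod.fst '' K)).toReal) ^ 2
          * (3 - 2 * (Real.sqrt (volume B).toReal / Real.sqrt (volume (Prod.fst '' K)).toReal)))
        * (volume.prod volume) K := by
  have hSc : IsCompact (Prod.fst '' K) := hK.image continuous_fst
  have hSfin : volume (Prod.fst '' K) ≠ ⊤ := hSc.measure_lt_top.ne
  have hBfin : volume B ≠ ⊤ := (hBS.trans_le le_top).ne
  set A := (volume (Prod.fst '' K)).toReal with hA
  set b := (volume B).toReal with hb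
  have hb0 : 0 < b := ENNReal.toReal_pos hB0.ne' hBfin
  have hbA : b < A := (ENNReal.toReal_lt_toReal hBfin hSfin).2 hBS
  set p := Real.sqrt A with hp
  set q := Real.sqrt b with hq
  have hq0 : 0 < q := Real.sqrt_pos.2 hb0
  have hqp : q < p := Real.sqrt_lt_sqrt hb0.le hbA
  have hp0 : 0 < p := hq0.trans hqp
  have hqq : q ^ 2 = b := Real.sq_sqrt hb0.le
  have hGfin : ∀ {r : ℝ}, 0 < r → volume (G K r) ≠ ⊤ := fun hr =>
    ne_top_of_le_ne_top hSfin (measure_mono (G_subset_shadow hr))
  -- the level function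
  let s : ℝ → ℝ := fun l => (volume (G K l)).toReal
  have hs0 : ∀ l, 0 ≤ s l := fun l => ENNReal.toReal_nonneg
  have hanti : ∀ l l', 0 < l → l ≤ l' → s l' ≤ s l := by
    intro l l' hl hll
    apply ENNReal.toReal_mono (hGfin hl)
    apply measure_mono
    intro y hy
    exact hll.trans hy
  have hstar : ∀ l m, 0 < l → 0 < m → m < 1 → 0 < s l →
      ((1 - m) * p + m * Real.sqrt (s l)) ^ 2 ≤ s (m * l) := by
    intro l m hl hm0 hm1 hsl
    have hne : (G K l).Nonempty := by
      by_contra h
      rw [not_nonempty_iff_eq_empty] at h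
      simp [s, h] at hsl
    exact star hW hc hK hS hl hm0 hm1 hne
  -- a point with a positive fibre
  have hposfib : ∃ y, 0 < gl K y := by
    by_contra hno
    push Not at hno
    have h0 : (volume.prod volume) K = 0 := by
      rw [volume_prod_eq hK]
      have : ∀ y, ENNReal.ofReal (gl K y) = 0 := fun y => ENNReal.ofReal_eq_zero.2 (hno y)
      simp [this]
    exact hV.ne' h0
  obtain ⟨y0, hy0⟩ := hposfib
  have hl0 : ∃ l0, 0 < l0 ∧ q ^ 2 ≤ s l0 := by
    set L := gl K y0 with hL
    have hm0 : 0 < (p - q) / p := div_pos (by linarith) hp0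
    have hm1 : (p - q) / p < 1 := (div_lt_one hp0).2 (by linarith)
    refine ⟨(p - q) / p * L, mul_pos hm0 hy0, ?_⟩
    have h1 := star hW hc hK hS hy0 hm0 hm1 (⟨y0, by simp [G, hL]⟩ : (G K L).Nonempty)
    refine le_trans ?_ h1
    have h2 : (1 - (p - q) / p) * p = q := by
      field_simp
      ring
    apply pow_le_pow_left₀ hq0.le
    have h3 : 0 ≤ (p - q) / p * Real.sqrt (volume (G K L)).toReal := by positivity
    rw [← hp] at h1
    linarith
  have hR : ∃ R, ∀ l, R < l → s l < q ^ 2 := by
    obtain ⟨R, hR⟩ := hK.isBounded.exists_norm_le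
    have hR0 : 0 ≤ R := by
      obtain ⟨x, hx⟩ : K.Nonempty := by
        by_contra h
        rw [not_nonempty_iff_eq_empty] at h
        simp [h] at hV
      exact (norm_nonneg x).trans (hR x hx)
    refine ⟨2 * R, fun l hl => ?_⟩
    have hem : G K l = ∅ := by
      ext y
      simp only [G, mem_ofPred_eq, mem_empty_iff_false, iff_false, not_le]
      exact lt_of_le_of_lt (gl_le_of_bounded hR y hR0) hl
    simp only [s, hem, measure_empty, ENNReal.toReal_zero]
    positivity
  obtain ⟨lam, hlam0, hbelow, habove⟩ := crossing hq0 hqp hs0 hanti hstar hl0 hR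
  set β := (q - p) / lam with hβ
  have hβ0 : β ≠ 0 := div_ne_zero (sub_neg.2 hqp).ne hlam0.ne'
  have hβneg : β < 0 := div_neg_of_neg_of_pos (by linarith) hlam0
  have hlamq : p + β * lam = q := by
    rw [hβ]
    field_simp
    ring
  set lam1 := - p / β with hlam1
  have hlam1q : p + β * lam1 = 0 := by
    rw [hlam1]
    field_simp
    ring
  have hlamlam1 : lam < lam1 := by
    have h1 : β * lam1 < β * lam := by linarith
    exact lt_of_mul_lt_mul_of_nonpos_left h1 hβneg.le
  -- the two parts
  let I1 := ∫⁻ l in Ioo 0 lam, volume (G K l)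
  let I2 := ∫⁻ l in Ioi lam, volume (G K l)
  have hVeq : (volume.prod volume) K = I1 + I2 := by
    rw [layer_cake hK]
    have e : Ioi (0 : ℝ) = Ioo 0 lam ∪ Ici lam := (Ioo_union_Ici_eq_Ioi hlam0).symm
    have hdisj : Disjoint (Ioo 0 lam) (Ici lam) := by
      rw [Set.disjoint_left]
      rintro l ⟨-, h1⟩ h2
      exact absurd h2 (not_le.2 h1)
    rw [e, lintegral_union measurableSet_Ici hdisj, setLIntegral_congr (Ioi_ae_eq_Ici (a := lam)).symm]
    rfl
  have hI1 : ENNReal.ofReal ((q ^ 3 - p ^ 3) / (3 * β)) ≤ I1 := by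
    have h1 := lintegral_sq_affine (α := p) (c := 0) (d := lam) hlam0.le hβ0
    rw [hlamq, mul_zero, add_zero] at h1
    rw [← h1]
    refine setLIntegral_mono' measurableSet_Ioo fun l hl => ?_
    have h2 := hbelow l hl.1 hl.2
    rw [← ENNReal.ofReal_toReal (hGfin hl.1)]
    exact ENNReal.ofReal_le_ofReal h2
  have hI2 : I2 ≤ ENNReal.ofReal ((0 - q ^ 3) / (3 * β)) := by
    have h1 := lintegral_sq_affine (α := p) (c := lam) (d := lam1) hlamlam1.le hβ0
    rw [hlamq, hlam1q] at h1
    have h00 : (0 : ℝ) ^ 3 = 0 := by norm_num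
    rw [h00] at h1
    rw [← h1, ← lintegral_indicator measurableSet_Ioo]
    show ∫⁻ l in Ioi lam, volume (G K l) ≤ _
    rw [← lintegral_indicator measurableSet_Ioi]
    refine lintegral_mono fun l => ?_
    by_cases hl : l ∈ Ioi lam
    · rw [indicator_of_mem hl]
      have hl' : lam < l := hl
      have hl0 : 0 < l := hlam0.trans hl'
      have h2 := habove l hl'
      rw [← ENNReal.ofReal_toReal (hGfin hl0)]
      by_cases hl1 : l < lam1
      · rw [indicator_of_mem (show l ∈ Ioo lam lam1 from ⟨hl', hl1⟩)]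
        refine ENNReal.ofReal_le_ofReal (h2.trans ?_)
        apply le_of_eq
        congr 1
        apply max_eq_left
        have : β * l > β * lam1 := mul_lt_mul_of_neg_left hl1 hβneg
        linarith
      · have hmax : max (p + β * l) 0 = 0 := by
          apply max_eq_right
          rw [not_lt] at hl1
          have : β * l ≤ β * lam1 := mul_le_mul_of_nonpos_left hl1 hβneg.le
          linarith
        rw [hmax] at h2
        have h3 : (volume (G K l)).toReal = 0 :=
          le_antisymm (by simpa [s] using h2) ENNReal.toReal_nonneg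
        rw [h3]
        simp
    · rw [indicator_of_notMem hl]
      exact zero_le
  have hVtop : (volume.prod volume) K ≠ ⊤ := by
    have := hK.measure_lt_top (μ := (volume.prod volume))
    exact this.ne
  have hI1fin : I1 ≠ ⊤ := ne_top_of_le_ne_top hVtop (by rw [hVeq]; exact le_self_add)
  have hI2fin : I2 ≠ ⊤ := ne_top_of_le_ne_top hVtop (by rw [hVeq]; exact le_add_self)
  -- the capture
  have hcap : (volume.prod volume) (K ∩ Prod.fst ⁻¹' B) ≤ ENNReal.ofReal (q ^ 2 * lam) + I2 := by
    rw [cap_layer hK hB]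
    have e : Ioi (0 : ℝ) = Ioo 0 lam ∪ Ici lam := (Ioo_union_Ici_eq_Ioi hlam0).symm
    have hdisj : Disjoint (Ioo 0 lam) (Ici lam) := by
      rw [Set.disjoint_left]
      rintro l ⟨-, h1⟩ h2
      exact absurd h2 (not_le.2 h1)
    rw [e, lintegral_union measurableSet_Ici hdisj, setLIntegral_congr (Ioi_ae_eq_Ici (a := lam)).symm]
    refine add_le_add ?_ ?_
    · calc ∫⁻ l in Ioo 0 lam, volume (G K l ∩ B) ≤ ∫⁻ _ in Ioo 0 lam, volume B :=
            lintegral_mono fun l => measure_mono inter_subset_right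
        _ = volume B * volume (Ioo 0 lam) := by rw [setLIntegral_const]
        _ = _ := by
          rw [Real.volume_Ioo, sub_zero, hqq, ENNReal.ofReal_mul hb0.le, hb, ENNReal.ofReal_toReal hBfin]
    · exact lintegral_mono fun l => measure_mono inter_subset_left
  -- conclusion
  have hi1 : (q ^ 3 - p ^ 3) / (3 * β) ≤ I1.toReal := by
    have := ENNReal.toReal_mono hI1fin hI1
    refine le_trans ?_ this
    rw [ENNReal.toReal_ofReal']
    exact le_max_left _ _
  have hi2 : I2.toReal ≤ (0 - q ^ 3) / (3 * β) := by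
    have hnn : 0 ≤ (0 - q ^ 3) / (3 * β) := by
      apply div_nonneg_of_nonpos
      · have : 0 < q ^ 3 := by positivity
        linarith
      · linarith
    have := ENNReal.toReal_mono ENNReal.ofReal_ne_top hI2
    rwa [ENNReal.toReal_ofReal hnn] at this
  have hfinal := cap_alg hq0 hqp hlam0 hi1 hi2
  calc (volume.prod volume) (K ∩ Prod.fst ⁻¹' B) ≤ ENNReal.ofReal (q ^ 2 * lam) + I2 := hcap
    _ = ENNReal.ofReal (q ^ 2 * lam + I2.toReal) := by
        rw [ENNReal.ofReal_add (by positivity) ENNReal.toReal_nonneg, ENNReal.ofReal_toReal hI2fin]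
    _ ≤ ENNReal.ofReal (q ^ 2 / p ^ 2 * (3 - 2 * (q / p)) * (I1.toReal + I2.toReal)) :=
        ENNReal.ofReal_le_ofReal hfinal
    _ = _ := by
        rw [ENNReal.ofReal_mul' (by positivity), ← ENNReal.toReal_add hI1fin hI2fin,
          ENNReal.ofReal_toReal (ENNReal.add_ne_top.2 ⟨hI1fin, hI2fin⟩), hVeq]

end Cap

end Vale.Agent.Lib.P243.Cop
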