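import Vale.Agent.Lib.P243.Cop8
import Vale.Agent.Lib.P243.Abs2

open MeasureTheory Set Module Filter Topology Submodule
open scoped ENNReal Pointwise

namespace Vale.Agent.Lib.P243.Cop

open Vale.Agent.Lib.P243 Vale.Agent.Lib.P243.Abs

/-- The capture function `f x = 3 x - 2 x √x`. -/
noncomputable def capf (x : ℝ) : ℝ := 3 * x - 2 * x * Real.sqrt x

lemma capf_nonneg {x : ℝ} (h0 : 0 ≤ x) (h1 : x ≤ 1) : 0 ≤ capf x := by
  have h2 : Real.sqrt x ≤ 1 := Real.sqrt_le_one.2 h1
  simp only [capf]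
  nlinarith

/-- The tangent line bound for `capf`. -/
lemma capf_tangent {x t : ℝ} (hx : 0 ≤ x) (ht : 0 ≤ t) :
    capf x ≤ capf t + 3 * (1 - Real.sqrt t) * (x - t) := by
  simp only [capf]
  set a := Real.sqrt x with ha
  set c := Real.sqrt t with hc
  have ha0 : 0 ≤ a := Real.sqrt_nonneg x
  have hc0 : 0 ≤ c := Real.sqrt_nonneg t
  have hxa : x = a ^ 2 := (Real.sq_sqrt hx).symm
  have htc : t = c ^ 2 := (Real.sq_sqrt ht).symm
  rw [hxa, htc]
  have h := mul_nonneg (sq_nonneg (a - c)) (by positivity : 0 ≤ 2 * a + c)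
  nlinarith

section Ambient

variable {E : Type*} [NormedAddCommGroup E] [InnerProductSpace ℝ E] [FiniteDimensional ℝ E]
  [MeasurableSpace E] [BorelSpace E]

lemma vol_pos_of_interior {K : Set E} (hK : IsCompact K) (hi : (interior K).Nonempty) :
    0 < volume K ∧ volume K ≠ ⊤ := by
  refine ⟨lt_of_lt_of_le (isOpen_interior.measure_pos volume hi) (measure_mono interior_subset),
    hK.measure_lt_top.ne⟩

/-- The capture fraction of one cylinder in the ambient space. -/
theorem one_cyl (hE : finrank ℝ E = 3) {K : Set E} (hc : Convex ℝ K) (hK : IsCompact K)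
    (hi : (interior K).Nonempty) (u : E) (hu : ‖u‖ = 1) {B : Set (ℝ ∙ u)ᗮ} (hB : MeasurableSet B) :
    volume (K ∩ (ℝ ∙ u)ᗮ.orthogonalProjectionOnto ⁻¹' B)
      ≤ ENNReal.ofReal (capf (min (volume B / volume ((ℝ ∙ u)ᗮ.orthogonalProjectionOnto '' K)) 1).toReal)
        * volume K := by
  have hW := finrank_perp hE u hu
  have hcK := image_convex u hu hc
  have hKK := image_compact u hu hK
  have hfst := fst_image_split u hu K
  obtain ⟨hV0, hVtop⟩ := vol_pos_of_interior hK hi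
  set T := splitEquiv u hu with hT
  set K' := T '' K with hK'
  have hvolK : (volume.prod volume) K' = volume K := vol_image u hu hK.measurableSet
  have hmcap : MeasurableSet (K ∩ (ℝ ∙ u)ᗮ.orthogonalProjectionOnto ⁻¹' B) :=
    hK.measurableSet.inter ((by fun_prop : Measurable ((ℝ ∙ u)ᗮ.orthogonalProjectionOnto)) hB)
  have himg : T '' (K ∩ (ℝ ∙ u)ᗮ.orthogonalProjectionOnto ⁻¹' B) = K' ∩ Prod.fst ⁻¹' B := by
    ext p
    constructor
    · rintro ⟨x, ⟨h1, h2⟩, rfl⟩
      refine ⟨⟨x, h1, rfl⟩, ?_⟩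
      show (T x).1 ∈ B
      rw [hT, splitEquiv_fst]
      exact h2
    · rintro ⟨⟨x, h1, rfl⟩, h2⟩
      refine ⟨x, ⟨h1, ?_⟩, rfl⟩
      have h3 : (T x).1 ∈ B := h2
      rw [hT, splitEquiv_fst] at h3
      exact h3
  have hcapvol : (volume.prod volume) (K' ∩ Prod.fst ⁻¹' B)
      = volume (K ∩ (ℝ ∙ u)ᗮ.orthogonalProjectionOnto ⁻¹' B) := by
    rw [← himg]
    exact vol_image u hu hmcap
  -- the shadow has positive area
  set A := volume ((ℝ ∙ u)ᗮ.orthogonalProjectionOnto '' K) with hA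
  have hSK' : Prod.fst '' K' = (ℝ ∙ u)ᗮ.orthogonalProjectionOnto '' K := hfst
  have hA0 : 0 < A := by
    by_contra h
    have h0 : A = 0 := by simpa using h
    have h1 : (volume.prod volume) K' ≤ (volume.prod volume) ((Prod.fst '' K') ×ˢ (univ : Set ℝ)) := by
      apply measure_mono
      rintro ⟨y, z⟩ hp
      exact ⟨⟨_, hp, rfl⟩, mem_univ _⟩
    rw [Measure.prod_prod, hSK', ← hA, h0, zero_mul, hvolK] at h1
    exact hV0.ne' (le_antisymm h1 zero_le)
  have hAfin : A ≠ ⊤ := (hK.image (by fun_prop)).measure_lt_top.ne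
  rcases eq_or_ne (volume B) 0 with hB0 | hB0
  · -- null base
    have h1 : (volume.prod volume) (K' ∩ Prod.fst ⁻¹' B) = 0 := by
      apply le_antisymm _ zero_le
      calc (volume.prod volume) (K' ∩ Prod.fst ⁻¹' B)
          ≤ (volume.prod volume) (B ×ˢ (univ : Set ℝ)) := by
            apply measure_mono
            rintro ⟨y, z⟩ hp
            exact ⟨hp.2, mem_univ _⟩
        _ = 0 := by rw [Measure.prod_prod, hB0, zero_mul]
    rw [← hcapvol, h1]
    exact zero_le
  rcases lt_or_ge (volume B) A with hBA | hBA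
  · -- the main case
    have hcap := cap_le hW hcK hKK (by rw [hSK']; exact hA0) (by rw [hvolK]; exact hV0) hB
      (pos_iff_ne_zero.2 hB0) (by rw [hSK']; exact hBA)
    rw [hcapvol, hvolK, hSK', ← hA] at hcap
    refine hcap.trans (le_of_eq ?_)
    congr 2
    have hBfin : volume B ≠ ⊤ := (hBA.trans_le le_top).ne
    have hle : volume B / A ≤ 1 := ENNReal.div_le_of_le_mul (by rw [one_mul]; exact hBA.le)
    rw [min_eq_left hle, ENNReal.toReal_div]
    set a := A.toReal with ha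
    set b := (volume B).toReal with hb
    have ha0 : 0 < a := ENNReal.toReal_pos hA0.ne' hAfin
    have hb0 : 0 ≤ b := ENNReal.toReal_nonneg
    simp only [capf]
    rw [Real.sqrt_div hb0, Real.sq_sqrt hb0, Real.sq_sqrt ha0.le]
    ring
  · -- the full case
    have hone : (1 : ℝ≥0∞) ≤ volume B / A := by
      rw [ENNReal.le_div_iff_mul_le (Or.inl hA0.ne') (Or.inl hAfin), one_mul]
      exact hBA
    rw [min_eq_right hone]
    simp only [ENNReal.toReal_one, capf, Real.sqrt_one]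
    norm_num
    exact measure_mono inter_subset_left

/-- The volume inequality for finite cylinder coverings. -/
theorem capf_sum (hE : finrank ℝ E = 3) {K : Set E} (hc : Convex ℝ K) (hK : IsCompact K)
    (hi : (interior K).Nonempty) {ι : Type*} [Fintype ι] (u : ι → E) (hu : ∀ i, ‖u i‖ = 1)
    (B : (i : ι) → Set (ℝ ∙ u i)ᗮ)
    (hcov : ∀ x ∈ K, ∃ i, (ℝ ∙ u i)ᗮ.orthogonalProjectionOnto x ∈ B i) :
    1 ≤ ∑ i, capf (min (volume (B i) / volume ((ℝ ∙ u i)ᗮ.orthogonalProjectionOnto '' K)) 1).toReal := by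
  obtain ⟨hV0, hVtop⟩ := vol_pos_of_interior hK hi
  let x : ι → ℝ := fun i =>
    (min (volume (B i) / volume ((ℝ ∙ u i)ᗮ.orthogonalProjectionOnto '' K)) 1).toReal
  have hx0 : ∀ i, 0 ≤ x i := fun i => ENNReal.toReal_nonneg
  have hx1 : ∀ i, x i ≤ 1 := by
    intro i
    have h1 : min (volume (B i) / volume ((ℝ ∙ u i)ᗮ.orthogonalProjectionOnto '' K)) 1 ≤ 1 :=
      min_le_right _ _
    simpa using ENNReal.toReal_mono ENNReal.one_ne_top h1
  let B' : (i : ι) → Set (ℝ ∙ u i)ᗮ := fun i => toMeasurable volume (B i)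
  have hB' : ∀ i, MeasurableSet (B' i) := fun i => measurableSet_toMeasurable _ _
  have hvB' : ∀ i, volume (B' i) = volume (B i) := fun i => measure_toMeasurable _
  have hsub : K ⊆ ⋃ i, (K ∩ (ℝ ∙ u i)ᗮ.orthogonalProjectionOnto ⁻¹' (B' i)) := by
    intro y hy
    obtain ⟨i, hi⟩ := hcov y hy
    exact mem_iUnion.2 ⟨i, hy, subset_toMeasurable _ _ hi⟩
  have h1 : volume K ≤ ∑ i, ENNReal.ofReal (capf (x i)) * volume K := by
    calc volume K ≤ volume (⋃ i, (K ∩ (ℝ ∙ u i)ᗮ.orthogonalProjectionOnto ⁻¹' (B' i))) := measure_mono hsub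
      _ ≤ ∑' i, volume (K ∩ (ℝ ∙ u i)ᗮ.orthogonalProjectionOnto ⁻¹' (B' i)) := measure_iUnion_le _
      _ = ∑ i, volume (K ∩ (ℝ ∙ u i)ᗮ.orthogonalProjectionOnto ⁻¹' (B' i)) := tsum_fintype _
      _ ≤ _ := by
        refine Finset.sum_le_sum fun i _ => ?_
        have h2 := one_cyl hE hc hK hi (u i) (hu i) (hB' i)
        rw [hvB'] at h2
        exact h2
  rw [← Finset.sum_mul, ← ENNReal.ofReal_sum_of_nonneg fun i _ => capf_nonneg (hx0 i) (hx1 i)] at h1
  by_contra hlt
  rw [not_le] at hlt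
  have h3 : ENNReal.ofReal (∑ i, capf (x i)) < 1 := by
    rw [← ENNReal.ofReal_one]
    exact (ENNReal.ofReal_lt_ofReal_iff one_pos).2 hlt
  have h4 : ENNReal.ofReal (∑ i, capf (x i)) * volume K < 1 * volume K :=
    ENNReal.mul_lt_mul_left hV0.ne' hVtop h3
  rw [one_mul] at h4
  exact absurd h1 (not_le.2 h4)

/-- The bound in terms of the number of cylinders. -/
theorem card_bound (hE : finrank ℝ E = 3) {K : Set E} (hc : Convex ℝ K) (hK : IsCompact K)
    (hi : (interior K).Nonempty) {ι : Type*} [Fintype ι] (u : ι → E) (hu : ∀ i, ‖u i‖ = 1)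
    (B : (i : ι) → Set (ℝ ∙ u i)ᗮ)
    (hcov : ∀ x ∈ K, ∃ i, (ℝ ∙ u i)ᗮ.orthogonalProjectionOnto x ∈ B i)
    {t : ℝ} (ht0 : 0 ≤ t) (ht1 : t < 1) (hm : (Fintype.card ι : ℝ) * capf t ≤ 1) :
    ENNReal.ofReal ((Fintype.card ι : ℝ) * t)
      ≤ ∑ i, volume (B i) / volume ((ℝ ∙ u i)ᗮ.orthogonalProjectionOnto '' K) := by
  have hsum := capf_sum hE hc hK hi u hu B hcov
  let x : ι → ℝ := fun i =>
    (min (volume (B i) / volume ((ℝ ∙ u i)ᗮ.orthogonalProjectionOnto '' K)) 1).toReal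
  have hx0 : ∀ i, 0 ≤ x i := fun i => ENNReal.toReal_nonneg
  have h1 : ∑ i, capf (x i) ≤ (Fintype.card ι : ℝ) * capf t + 3 * (1 - Real.sqrt t) * (∑ i, x i - (Fintype.card ι : ℝ) * t) := by
    calc ∑ i, capf (x i) ≤ ∑ i, (capf t + 3 * (1 - Real.sqrt t) * (x i - t)) :=
          Finset.sum_le_sum fun i _ => capf_tangent (hx0 i) ht0
      _ = _ := by
        rw [Finset.sum_add_distrib, ← Finset.mul_sum, Finset.sum_sub_distrib]
        simp
  have hsq : Real.sqrt t < 1 := by
    rw [Real.sqrt_lt' one_pos]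
    linarith
  have h2 : 0 ≤ ∑ i, x i - (Fintype.card ι : ℝ) * t := by
    have h3 : 0 < 3 * (1 - Real.sqrt t) := by linarith
    have h4 : 0 ≤ 3 * (1 - Real.sqrt t) * (∑ i, x i - (Fintype.card ι : ℝ) * t) := by linarith
    exact nonneg_of_mul_nonneg_right h4 h3
  calc ENNReal.ofReal ((Fintype.card ι : ℝ) * t) ≤ ENNReal.ofReal (∑ i, x i) :=
        ENNReal.ofReal_le_ofReal (by linarith)
    _ = ∑ i, ENNReal.ofReal (x i) := ENNReal.ofReal_sum_of_nonneg fun i _ => hx0 i
    _ ≤ _ := by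
      refine Finset.sum_le_sum fun i _ => ?_
      have hfin : min (volume (B i) / volume ((ℝ ∙ u i)ᗮ.orthogonalProjectionOnto '' K)) 1 ≠ ⊤ :=
        ne_top_of_le_ne_top ENNReal.one_ne_top (min_le_right _ _)
      simp only [x]
      rw [ENNReal.ofReal_toReal hfin]
      exact min_le_left _ _

/-- At most two cylinders: the half area conjecture in its strong form. -/
theorem two_cylinders (hE : finrank ℝ E = 3) {K : Set E} (hc : Convex ℝ K) (hK : IsCompact K)
    (hi : (interior K).Nonempty) {ι : Type*} [Fintype ι] (u : ι → E) (hu : ∀ i, ‖u i‖ = 1)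
    (B : (i : ι) → Set (ℝ ∙ u i)ᗮ)
    (hcov : ∀ x ∈ K, ∃ i, (ℝ ∙ u i)ᗮ.orthogonalProjectionOnto x ∈ B i)
    (hm : Fintype.card ι ≤ 2) :
    ENNReal.ofReal (1 / 2) ≤ ∑ i, volume (B i) / volume ((ℝ ∙ u i)ᗮ.orthogonalProjectionOnto '' K) := by
  have hsqrt : Real.sqrt (1 / 4) = 1 / 2 := by
    rw [show (1 / 4 : ℝ) = (1 / 2) ^ 2 by norm_num]
    exact Real.sqrt_sq (by norm_num)
  have hf : capf (1 / 4) = 1 / 2 := by
    simp only [capf, hsqrt]
    norm_num
  have hsum := capf_sum hE hc hK hi u hu B hcov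
  have hcard : 1 ≤ Fintype.card ι := by
    by_contra h
    have h0 : Fintype.card ι = 0 := by omega
    have := Fintype.card_eq_zero_iff.1 h0
    simp at hsum
    linarith
  interval_cases hc' : Fintype.card ι
  · -- one cylinder
    have h1 := card_bound hE hc hK hi u hu B hcov (t := 1 / 2) (by norm_num) (by norm_num) (by
      rw [hc']
      have h2 : capf (1 / 2) ≤ 1 := by
        simp only [capf]
        have h3 : 0 ≤ Real.sqrt (1 / 2) := Real.sqrt_nonneg _
        have h4 : Real.sqrt (1 / 2) ^ 2 = 1 / 2 := Real.sq_sqrt (by norm_num)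
        nlinarith
      simpa using h2)
    rw [hc'] at h1
    simpa using h1
  · have h1 := card_bound hE hc hK hi u hu B hcov (t := 1 / 4) (by norm_num) (by norm_num) (by
      rw [hc', hf]
      norm_num)
    rw [hc'] at h1
    refine le_trans (le_of_eq ?_) h1
    norm_num

end Ambient

end Vale.Agent.Lib.P243.Cop
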